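import Vale.Agent.P271.Hilb.Unif

/-!
# Asymptotic form of the uniform bounds

`sum_choose_lower`, `sum_choose_upper`: for `t ≥ D` the two sums of binomial coefficients in
`hilbert_bounds` lie between `D (t - D)^d / d!` and `D (t + D + d)^d / d!`.
`uniform_bounds`: for `ε > 0` and `D₀` there is `T` such that for `1 ≤ D ≤ D₀` and `t ≥ T` they
lie between `(1 - ε) D t^d / d!` and `(1 + ε) D t^d / d!`.
-/

set_option linter.unusedSectionVars false

namespace Vale.Agent.P271.Hilb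

open Finset Filter Topology

/-- the lower sum of `hilbert_bounds` -/
def lowSum (d D t : ℕ) : ℕ := ∑ i ∈ range D with i ≤ t, (t - i + d).choose d

/-- the upper sum of `hilbert_bounds` -/
def upSum (d D t : ℕ) : ℕ := ∑ i ∈ range D, (t + i + d).choose d

lemma lowSum_ge (d D t : ℕ) (ht : D ≤ t) :
    (D : ℝ) * ((t : ℝ) - D) ^ d / (d.factorial : ℝ) ≤ lowSum d D t := by
  have h1 : (lowSum d D t : ℝ) = ∑ i ∈ range D, (((t - i + d).choose d : ℕ) : ℝ) := by
    unfold lowSum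
    rw [Finset.filter_true_of_mem (fun i hi => by
      have := Finset.mem_range.1 hi; omega)]
    push_cast
    rfl
  rw [h1]
  have h2 : ∀ i ∈ range D, ((t : ℝ) - D) ^ d / (d.factorial : ℝ)
      ≤ (((t - i + d).choose d : ℕ) : ℝ) := by
    intro i hi
    have hi' := Finset.mem_range.1 hi
    have h3 := Nat.pow_le_choose (α := ℝ) d (t - i + d)
    refine le_trans ?_ h3
    have hD : (D : ℝ) ≤ t := by exact_mod_cast ht
    have h4 : t - i + d + 1 - d = t - i + 1 := by omega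
    rw [h4]
    push_cast [Nat.cast_sub (by omega : i ≤ t)]
    have : (i : ℝ) ≤ D := by exact_mod_cast hi'.le
    have h5 : ((t : ℝ) - D) ^ d ≤ ((t : ℝ) - i + 1) ^ d :=
      pow_le_pow_left₀ (by linarith) (by linarith) d
    gcongr
  calc (D : ℝ) * ((t : ℝ) - D) ^ d / (d.factorial : ℝ)
      = ∑ _i ∈ range D, ((t : ℝ) - D) ^ d / (d.factorial : ℝ) := by
        rw [Finset.sum_const, Finset.card_range, nsmul_eq_mul, mul_div_assoc]
    _ ≤ _ := Finset.sum_le_sum h2

lemma upSum_le (d D t : ℕ) :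
    (upSum d D t : ℝ) ≤ (D : ℝ) * ((t : ℝ) + D + d) ^ d / (d.factorial : ℝ) := by
  have h1 : (upSum d D t : ℝ) = ∑ i ∈ range D, (((t + i + d).choose d : ℕ) : ℝ) := by
    unfold upSum
    push_cast
    rfl
  rw [h1]
  have h2 : ∀ i ∈ range D, (((t + i + d).choose d : ℕ) : ℝ)
      ≤ ((t : ℝ) + D + d) ^ d / (d.factorial : ℝ) := by
    intro i hi
    have hi' := Finset.mem_range.1 hi
    have h3 := Nat.choose_le_pow_div (α := ℝ) d (t + i + d)
    refine le_trans h3 ?_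
    gcongr
    push_cast
    have : (i : ℝ) ≤ D := by exact_mod_cast hi'.le
    linarith
  calc ∑ i ∈ range D, (((t + i + d).choose d : ℕ) : ℝ)
      ≤ ∑ _i ∈ range D, ((t : ℝ) + D + d) ^ d / (d.factorial : ℝ) := Finset.sum_le_sum h2
    _ = _ := by rw [Finset.sum_const, Finset.card_range, nsmul_eq_mul, mul_div_assoc]

/-- `(1 ± c/t)^d → 1` -/
lemma tendsto_ratio (d : ℕ) (c : ℝ) :
    Tendsto (fun t : ℕ => ((t : ℝ) + c) ^ d / (t : ℝ) ^ d) atTop (𝓝 1) := by
  have h1 : Tendsto (fun t : ℕ => (1 + c / (t : ℝ)) ^ d) atTop (𝓝 ((1 + 0) ^ d)) := by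
    exact (tendsto_const_nhds.add (tendsto_const_div_atTop_nhds_zero_nat c)).pow d
  rw [add_zero, one_pow] at h1
  refine h1.congr' ?_
  filter_upwards [eventually_gt_atTop 0] with t ht
  have ht' : (t : ℝ) ≠ 0 := by exact_mod_cast ht.ne'
  rw [← div_pow, add_div, div_self ht']

/-- **Uniform asymptotics** of the two sums. -/
theorem uniform_sums (d D₀ : ℕ) {ε : ℝ} (hε : 0 < ε) :
    ∃ T : ℕ, ∀ D ≤ D₀, ∀ t ≥ T,
      (1 - ε) * (D * (t : ℝ) ^ d / (d.factorial : ℝ)) ≤ lowSum d D t ∧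
      (upSum d D t : ℝ) ≤ (1 + ε) * (D * (t : ℝ) ^ d / (d.factorial : ℝ)) := by
  have h1 := (tendsto_order.1 (tendsto_ratio d (-(D₀ : ℝ)))).1 (1 - ε) (by linarith)
  have h2 := (tendsto_order.1 (tendsto_ratio d ((D₀ : ℝ) + d))).2 (1 + ε) (by linarith)
  obtain ⟨T, hT⟩ := eventually_atTop.1 (h1.and (h2.and (eventually_ge_atTop (D₀ + 1))))
  refine ⟨T, fun D hD t ht => ?_⟩
  obtain ⟨h3, h4, h5⟩ := hT t ht
  have ht0 : (0 : ℝ) < (t : ℝ) ^ d := by
    have : (0 : ℝ) < t := by exact_mod_cast (by omega : 0 < t)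
    positivity
  have hDR : (D : ℝ) ≤ D₀ := by exact_mod_cast hD
  have htR : (D₀ : ℝ) + 1 ≤ t := by exact_mod_cast h5
  rw [lt_div_iff₀ ht0] at h3
  rw [div_lt_iff₀ ht0] at h4
  have hD0 : (0 : ℝ) ≤ D := Nat.cast_nonneg D
  have hf : (0 : ℝ) < d.factorial := by exact_mod_cast d.factorial_pos
  constructor
  · refine le_trans ?_ (lowSum_ge d D t (by omega))
    have h6 : ((t : ℝ) + -(D₀ : ℝ)) ^ d ≤ ((t : ℝ) - D) ^ d := by
      apply pow_le_pow_left₀
      · linarith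
      · linarith
    calc (1 - ε) * (D * (t : ℝ) ^ d / (d.factorial : ℝ))
        = D * ((1 - ε) * (t : ℝ) ^ d) / (d.factorial : ℝ) := by ring
      _ ≤ D * ((t : ℝ) - D) ^ d / (d.factorial : ℝ) := by
          gcongr
          linarith
  · refine le_trans (upSum_le d D t) ?_
    have h6 : ((t : ℝ) + D + d) ^ d ≤ ((t : ℝ) + ((D₀ : ℝ) + d)) ^ d := by
      apply pow_le_pow_left₀
      · positivity
      · linarith
    calc (D : ℝ) * ((t : ℝ) + D + d) ^ d / (d.factorial : ℝ)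
        ≤ D * ((1 + ε) * (t : ℝ) ^ d) / (d.factorial : ℝ) := by
          gcongr
          linarith
      _ = (1 + ε) * (D * (t : ℝ) ^ d / (d.factorial : ℝ)) := by ring

/-- A function squeezed between the two sums is asymptotic to `D t^d / d!`. -/
theorem tendsto_of_bounds {d D : ℕ} (hD : 1 ≤ D) {h : ℕ → ℝ}
    (h1 : ∀ t, (lowSum d D t : ℝ) ≤ h t) (h2 : ∀ t, h t ≤ upSum d D t) :
    Tendsto (fun t : ℕ => h t / (t : ℝ) ^ d) atTop (𝓝 (D / (d.factorial : ℝ))) := by
  have hf : (0 : ℝ) < d.factorial := by exact_mod_cast d.factorial_pos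
  have hD' : (0 : ℝ) < D := by exact_mod_cast hD
  have hlow : Tendsto (fun t : ℕ => (D / (d.factorial : ℝ)) *
      (((t : ℝ) + -(D : ℝ)) ^ d / (t : ℝ) ^ d)) atTop (𝓝 (D / (d.factorial : ℝ))) := by
    simpa using (tendsto_ratio d (-(D : ℝ))).const_mul (D / (d.factorial : ℝ))
  have hup : Tendsto (fun t : ℕ => (D / (d.factorial : ℝ)) *
      (((t : ℝ) + ((D : ℝ) + d)) ^ d / (t : ℝ) ^ d)) atTop (𝓝 (D / (d.factorial : ℝ))) := by
    simpa using (tendsto_ratio d ((D : ℝ) + d)).const_mul (D / (d.factorial : ℝ))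
  refine tendsto_of_tendsto_of_tendsto_of_le_of_le' hlow hup ?_ ?_
  · filter_upwards [eventually_ge_atTop (D + 1)] with t ht
    have ht0 : (0 : ℝ) < (t : ℝ) ^ d := by
      have : (0 : ℝ) < t := by exact_mod_cast (by omega : 0 < t)
      positivity
    rw [le_div_iff₀ ht0]
    refine le_trans (le_of_eq ?_) ((lowSum_ge d D t (by omega)).trans (h1 t))
    rw [← sub_eq_add_neg]
    field_simp
  · filter_upwards [eventually_ge_atTop (D + 1)] with t ht
    have ht0 : (0 : ℝ) < (t : ℝ) ^ d := by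
      have : (0 : ℝ) < t := by exact_mod_cast (by omega : 0 < t)
      positivity
    rw [div_le_iff₀ ht0]
    refine ((h2 t).trans (upSum_le d D t)).trans (le_of_eq ?_)
    rw [add_assoc]
    field_simp

/-- The pair `(d, D)` is determined by the growth. -/
theorem bounds_unique {d D d' D' : ℕ} (hD : 1 ≤ D) (hD' : 1 ≤ D') {h : ℕ → ℝ}
    (h1 : ∀ t, (lowSum d D t : ℝ) ≤ h t) (h2 : ∀ t, h t ≤ upSum d D t)
    (h1' : ∀ t, (lowSum d' D' t : ℝ) ≤ h t) (h2' : ∀ t, h t ≤ upSum d' D' t) :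
    d = d' ∧ D = D' := by
  have key : ∀ {d D d' D' : ℕ}, 1 ≤ D → 1 ≤ D' → (∀ t, (lowSum d D t : ℝ) ≤ h t) →
      (∀ t, h t ≤ upSum d D t) → (∀ t, (lowSum d' D' t : ℝ) ≤ h t) →
      (∀ t, h t ≤ upSum d' D' t) → ¬ d < d' := by
    intro d D d' D' hD hD' h1 h2 h1' h2' hlt
    have ha := tendsto_of_bounds hD h1 h2
    have hb := tendsto_of_bounds hD' h1' h2'
    have hc : Tendsto (fun t : ℕ => (h t / (t : ℝ) ^ d) * (1 / (t : ℝ) ^ (d' - d))) atTop
        (𝓝 (D / (d.factorial : ℝ) * 0)) := by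
      refine ha.mul ?_
      have h0 : Tendsto (fun t : ℕ => ((t : ℝ) ^ (d' - d))) atTop atTop :=
        (tendsto_pow_atTop (by omega)).comp tendsto_natCast_atTop_atTop
      have h00 := h0.inv_tendsto_atTop
      refine h00.congr (fun t => ?_)
      simp
    rw [mul_zero] at hc
    have hd : Tendsto (fun t : ℕ => h t / (t : ℝ) ^ d') atTop (𝓝 0) := by
      refine hc.congr' ?_
      filter_upwards [eventually_gt_atTop 0] with t ht
      have ht' : (t : ℝ) ≠ 0 := by exact_mod_cast ht.ne'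
      rw [div_mul_div_comm, mul_one, ← pow_add, Nat.add_sub_cancel' hlt.le]
    have := tendsto_nhds_unique hb hd
    have hf : (0 : ℝ) < d'.factorial := by exact_mod_cast d'.factorial_pos
    have hD'' : (0 : ℝ) < D' := by exact_mod_cast hD'
    have : (0 : ℝ) < D' / (d'.factorial : ℝ) := by positivity
    linarith
  have hdd : d = d' := le_antisymm (not_lt.1 (key hD' hD h1' h2' h1 h2))
    (not_lt.1 (key hD hD' h1 h2 h1' h2'))
  subst hdd
  refine ⟨rfl, ?_⟩
  have := tendsto_nhds_unique (tendsto_of_bounds hD h1 h2) (tendsto_of_bounds hD' h1' h2')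
  have hf : (0 : ℝ) < d.factorial := by exact_mod_cast d.factorial_pos
  rw [div_left_inj' hf.ne'] at this
  exact_mod_cast this

/-- The Hilbert function of a standard graded domain: two-sided bounds, with a linear Noether
normalisation and the limit of `dim R_t / t^d`. -/
theorem hilbert_growth {k R : Type*} [Field k] [CharZero k] [CommRing R] [IsDomain R]
    [Algebra k R] (𝒜 : ℕ → Submodule k R) [GradedAlgebra 𝒜] (hfin : (𝒜 1).FG)
    (h1 : 𝒜 1 ≠ ⊥) (hgen : Algebra.adjoin k (𝒜 1 : Set R) = ⊤) :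
    ∃ (d : ℕ) (y : Fin (d + 1) → R) (D : ℕ), (∀ i, y i ∈ 𝒜 1) ∧ AlgebraicIndependent k y ∧
      (∀ x : R, IsIntegral (Algebra.adjoin k (Set.range y)) x) ∧ 1 ≤ D ∧
      (∀ t, Module.Finite k (𝒜 t)) ∧ (∀ t, lowSum d D t ≤ Module.finrank k (𝒜 t)) ∧
      (∀ t, Module.finrank k (𝒜 t) ≤ upSum d D t) ∧
      Tendsto (fun t : ℕ => (Module.finrank k (𝒜 t) : ℝ) / (t : ℝ) ^ d) atTop
        (𝓝 (D / (d.factorial : ℝ))) := by
  obtain ⟨d, y, D, hy, hind, hint, hD, h⟩ := hilbert_bounds' 𝒜 hfin h1 hgen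
  refine ⟨d, y, D, hy, hind, hint, hD, fun t => (h t).1, fun t => (h t).2.1,
    fun t => (h t).2.2, ?_⟩
  exact tendsto_of_bounds hD (fun t => by exact_mod_cast (h t).2.1)
    (fun t => by exact_mod_cast (h t).2.2)

end Vale.Agent.P271.Hilb
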