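import Mathlib

/-!
# Many homogeneous elements of small degree

Let `R` be a graded domain generated over `R_0 = k` by `R_1`, let `L` be the fraction field of
`R` and `K` a subfield of `L` with `D = [L : K] < ∞`.  Then there is a `K`-basis
`e_0, …, e_{D-1}` of `L` with `e_i ∈ R` homogeneous of degree `≤ i`.
-/

set_option linter.unusedSectionVars false

namespace Vale.Agent.P271.Hilb

variable {k R K L : Type*} [Field k] [CommRing R] [Algebra k R] [Field K] [Field L]
  [Algebra R L] [IsFractionRing R L] [Algebra K L]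
variable (𝒜 : ℕ → Submodule k R) [GradedAlgebra 𝒜]

/-- the `K`-span of the homogeneous elements of degree `≤ i` -/
def fspan (K L : Type*) [Field K] [Field L] [Algebra R L] [Algebra K L] (i : ℕ) :
    Submodule K L :=
  Submodule.span K {z | ∃ j ≤ i, ∃ x ∈ 𝒜 j, algebraMap R L x = z}

lemma fspan_mono {i j : ℕ} (h : i ≤ j) : fspan 𝒜 K L i ≤ fspan 𝒜 K L j := by
  apply Submodule.span_mono
  rintro z ⟨l, hl, x, hx, rfl⟩
  exact ⟨l, hl.trans h, x, hx, rfl⟩

lemma one_mem_fspan (i : ℕ) : (1 : L) ∈ fspan 𝒜 K L i :=
  Submodule.subset_span ⟨0, Nat.zero_le _, 1, SetLike.one_mem_graded 𝒜, map_one _⟩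

lemma mul_mem_fspan {i : ℕ} {x : R} (hx : x ∈ 𝒜 1) {z : L} (hz : z ∈ fspan 𝒜 K L i) :
    algebraMap R L x * z ∈ fspan 𝒜 K L (i + 1) := by
  induction hz using Submodule.span_induction with
  | mem z hz =>
    obtain ⟨j, hj, w, hw, rfl⟩ := hz
    refine Submodule.subset_span ⟨1 + j, by omega, x * w, SetLike.mul_mem_graded hx hw, ?_⟩
    rw [map_mul]
  | zero => simp
  | add u v _ _ hu hv => rw [mul_add]; exact Submodule.add_mem _ hu hv
  | smul c u _ hu => rw [mul_smul_comm]; exact Submodule.smul_mem _ _ hu

variable [Algebra k K] [Algebra k L] [IsScalarTower k K L] [IsScalarTower k R L]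

omit [Algebra k R] [Algebra k K] [Algebra k L] [IsScalarTower k K L] [IsScalarTower k R L] in
/-- A subspace of `L` which contains `1` and is stable under `R` is everything. -/
lemma eq_top_of_stable_ring [Algebra.IsAlgebraic K L] {M : Submodule K L} (h1 : (1 : L) ∈ M)
    (hM : ∀ x : R, ∀ z ∈ M, algebraMap R L x * z ∈ M) : M = ⊤ := by
  let S : Subalgebra K L :=
    { carrier := {x | ∀ z ∈ M, x * z ∈ M}
      mul_mem' := by
        intro a b ha hb z hz
        rw [mul_assoc]
        exact ha _ (hb _ hz)
      add_mem' := by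
        intro a b ha hb z hz
        rw [add_mul]
        exact M.add_mem (ha _ hz) (hb _ hz)
      algebraMap_mem' := by
        intro c z hz
        rw [← Algebra.smul_def]
        exact M.smul_mem _ hz }
  have hR : ∀ x : R, algebraMap R L x ∈ S := fun x z hz => hM x z hz
  rw [eq_top_iff]
  intro z _
  obtain ⟨a, b, hb, rfl⟩ := IsFractionRing.div_surjective (A := R) z
  have hb' : (algebraMap R L b)⁻¹ ∈ S :=
    S.inv_mem_of_algebraic (x := ⟨algebraMap R L b, hR b⟩) (Algebra.IsAlgebraic.isAlgebraic _)
  have h2 : algebraMap R L a / algebraMap R L b ∈ S := by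
    rw [div_eq_mul_inv]
    exact S.mul_mem (hR a) hb'
  simpa using h2 1 h1

/-- A subspace of `L` which contains `1` and is stable under `R_1` is everything. -/
lemma eq_top_of_stable (hgen : Algebra.adjoin k (𝒜 1 : Set R) = ⊤) [FiniteDimensional K L]
    {M : Submodule K L} (h1 : (1 : L) ∈ M)
    (hM : ∀ x ∈ 𝒜 1, ∀ z ∈ M, algebraMap R L x * z ∈ M) : M = ⊤ := by
  refine eq_top_of_stable_ring (R := R) h1 (fun x => ?_)
  have hx : x ∈ Algebra.adjoin k (𝒜 1 : Set R) := hgen ▸ Algebra.mem_top
  induction hx using Algebra.adjoin_induction with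
  | mem x hx => exact fun z hz => hM x hx z hz
  | algebraMap r =>
    intro z hz
    rw [← IsScalarTower.algebraMap_apply, IsScalarTower.algebraMap_apply k K L,
      ← Algebra.smul_def]
    exact M.smul_mem _ hz
  | add u v _ _ hu hv =>
    intro z hz
    rw [map_add, add_mul]
    exact M.add_mem (hu z hz) (hv z hz)
  | mul u v _ _ hu hv =>
    intro z hz
    rw [map_mul, mul_assoc]
    exact hu _ (hv z hz)

/-- `L` is finite over `K` if `R` is a finite `A`-module. -/
lemma finiteDimensional_of_finite (A : Type*) [CommRing A] [Algebra A R] [Algebra A K]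
    [Algebra A L] [IsScalarTower A K L] [IsScalarTower A R L] [Module.Finite A R] :
    FiniteDimensional K L := by
  have : Algebra.IsAlgebraic K L := isAlgebraic_of_isFractionRing A R K L
  obtain ⟨s, hs⟩ := (Module.Finite.fg_top : (⊤ : Submodule A R).FG)
  have hmem : ∀ x : R, algebraMap R L x ∈
      Submodule.span K (algebraMap R L '' (s : Set R)) := by
    intro x
    have hx : x ∈ Submodule.span A (s : Set R) := hs ▸ Submodule.mem_top
    induction hx using Submodule.span_induction with
    | mem x hx => exact Submodule.subset_span ⟨x, hx, rfl⟩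
    | zero => simp
    | add u v _ _ hu hv => rw [map_add]; exact Submodule.add_mem _ hu hv
    | smul c u _ hu =>
      rw [Algebra.smul_def, map_mul, ← IsScalarTower.algebraMap_apply,
        IsScalarTower.algebraMap_apply A K L, ← Algebra.smul_def]
      exact Submodule.smul_mem _ _ hu
  have htop : Submodule.span K (algebraMap R L '' (s : Set R)) = ⊤ := by
    refine eq_top_of_stable_ring (R := R) (by simpa using hmem 1) (fun x z hz => ?_)
    induction hz using Submodule.span_induction with
    | mem z hz =>
      obtain ⟨w, _, rfl⟩ := hz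
      rw [← map_mul]
      exact hmem _
    | zero => simp
    | add u v _ _ hu hv => rw [mul_add]; exact Submodule.add_mem _ hu hv
    | smul c u _ hu => rw [mul_smul_comm]; exact Submodule.smul_mem _ _ hu
  exact Module.finite_def.2 (htop ▸ Submodule.fg_span (s.finite_toSet.image _))

lemma finrank_fspan (hgen : Algebra.adjoin k (𝒜 1 : Set R) = ⊤) [FiniteDimensional K L] (i : ℕ)
    (hi : i + 1 ≤ Module.finrank K L) : i + 1 ≤ Module.finrank K (fspan 𝒜 K L i) := by
  induction i with
  | zero =>
    have h1 : fspan 𝒜 K L 0 ≠ ⊥ := by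
      intro h
      have := one_mem_fspan (K := K) (L := L) 𝒜 0
      rw [h, Submodule.mem_bot] at this
      exact one_ne_zero this
    exact Submodule.one_le_finrank_iff.2 h1
  | succ i ih =>
    have ih' := ih (by omega)
    by_contra hcon
    push Not at hcon
    have h1 : Module.finrank K (fspan 𝒜 K L i) ≤ Module.finrank K (fspan 𝒜 K L (i + 1)) :=
      Submodule.finrank_mono (fspan_mono 𝒜 (Nat.le_succ i))
    have h2 : fspan 𝒜 K L i = fspan 𝒜 K L (i + 1) :=
      Submodule.eq_of_le_of_finrank_eq (fspan_mono 𝒜 (Nat.le_succ i)) (by omega)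
    have h3 : fspan 𝒜 K L i = ⊤ := by
      refine eq_top_of_stable 𝒜 hgen (one_mem_fspan 𝒜 i) (fun x hx z hz => ?_)
      rw [h2]
      exact mul_mem_fspan 𝒜 hx hz
    rw [← h2, h3, finrank_top] at hcon
    omega

/-- A `K`-linearly independent family `e_0, …, e_{i-1}` of homogeneous elements of `R` with
`deg e_j ≤ j`, for every `i ≤ [L : K]`. -/
theorem exists_indep (hgen : Algebra.adjoin k (𝒜 1 : Set R) = ⊤) [FiniteDimensional K L]
    (i : ℕ) (hi : i ≤ Module.finrank K L) :
    ∃ (e : Fin i → R) (a : Fin i → ℕ), (∀ j, e j ∈ 𝒜 (a j)) ∧ (∀ j, a j ≤ j) ∧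
      LinearIndependent K (fun j => algebraMap R L (e j)) := by
  induction i with
  | zero => exact ⟨Fin.elim0, Fin.elim0, fun j => j.elim0, fun j => j.elim0,
      linearIndependent_empty_type⟩
  | succ i ih =>
    obtain ⟨e, a, he, ha, hind⟩ := ih (by omega)
    have h1 : Module.finrank K (Submodule.span K (Set.range fun j => algebraMap R L (e j))) = i := by
      rw [finrank_span_eq_card hind, Fintype.card_fin]
    have h2 := finrank_fspan (K := K) (L := L) 𝒜 hgen i hi
    obtain ⟨j, hj, x, hx, hx'⟩ : ∃ j ≤ i, ∃ x ∈ 𝒜 j, algebraMap R L x ∉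
        Submodule.span K (Set.range fun j => algebraMap R L (e j)) := by
      by_contra hcon
      push Not at hcon
      have h3 : fspan 𝒜 K L i ≤
          Submodule.span K (Set.range fun j => algebraMap R L (e j)) := by
        apply Submodule.span_le.2
        rintro z ⟨j, hj, x, hx, rfl⟩
        exact hcon j hj x hx
      have h4 := Submodule.finrank_mono h3
      omega
    refine ⟨Fin.snoc e x, Fin.snoc a j, ?_, ?_, ?_⟩
    · intro l
      refine Fin.lastCases ?_ (fun l => ?_) l
      · simpa using hx
      · simpa using he l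
    · intro l
      refine Fin.lastCases ?_ (fun l => ?_) l
      · simpa using hj
      · simpa using ha l
    · have h5 : (fun l : Fin (i + 1) => algebraMap R L ((Fin.snoc e x : Fin (i + 1) → R) l))
          = Fin.snoc (fun l => algebraMap R L (e l)) (algebraMap R L x) := by
        funext l
        refine Fin.lastCases ?_ (fun l => ?_) l <;> simp
      rw [h5, linearIndependent_finSnoc]
      exact ⟨hind, hx'⟩

end Vale.Agent.P271.Hilb
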