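import Vale.Agent.P271.Hilb.UTrace
import Vale.Agent.P271.Hilb.UIndep

/-!
# Uniform bounds for the Hilbert function of a graded domain

`hilbert_bounds`: let `R` be a graded domain over a field `k` of characteristic zero, generated
over `R_0 = k` by the finite dimensional space `R_1 ≠ 0`.  Then there are `d` and `D ≥ 1` with
`∑_{i < D, i ≤ t} C(t - i + d, d) ≤ dim R_t ≤ ∑_{i < D} C(t + i + d, d)` for all `t`.
-/

set_option linter.unusedSectionVars false

namespace Vale.Agent.P271.Hilb

open MvPolynomial

section KL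

variable {k : Type*} [Field k] {d : ℕ} {R : Type*} [CommRing R] [Algebra k R]
  [Algebra (MvPolynomial (Fin (d + 1)) k) R] [IsScalarTower k (MvPolynomial (Fin (d + 1)) k) R]
variable (𝒜 : ℕ → Submodule k R) [GradedAlgebra 𝒜]
variable (hy : ∀ i, algebraMap (MvPolynomial (Fin (d + 1)) k) R (X i) ∈ 𝒜 1)
variable [IsDomain R] [Module.IsTorsionFree (MvPolynomial (Fin (d + 1)) k) R]
variable {K L : Type*} [Field K] [Field L] [Algebra (MvPolynomial (Fin (d + 1)) k) K]
  [IsFractionRing (MvPolynomial (Fin (d + 1)) k) K] [Algebra R L] [IsFractionRing R L]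
  [Algebra K L] [Algebra (MvPolynomial (Fin (d + 1)) k) L]
  [IsScalarTower (MvPolynomial (Fin (d + 1)) k) K L]
  [IsScalarTower (MvPolynomial (Fin (d + 1)) k) R L] [FiniteDimensional K L]
  [Algebra k K] [IsScalarTower k (MvPolynomial (Fin (d + 1)) k) K]
  [Algebra k L] [IsScalarTower k K L] [IsScalarTower k R L]

include hy

/-- **Upper bound** through traces. -/
theorem upper_bound [CharZero K] (hint : ∀ x : R, IsIntegral (MvPolynomial (Fin (d + 1)) k) x)
    {D : ℕ} (hD : D = Module.finrank K L) (e : Fin D → R) (a : Fin D → ℕ)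
    (he : ∀ i, e i ∈ 𝒜 (a i)) (hind : LinearIndependent K (fun i => algebraMap R L (e i)))
    (t : ℕ) : Module.Finite k (𝒜 t) ∧
      Module.finrank k (𝒜 t) ≤ ∑ i, (t + a i + d).choose d := by
  classical
  -- the spaces of forms inside `K`
  let f : MvPolynomial (Fin (d + 1)) k →ₗ[k] K :=
    (IsScalarTower.toAlgHom k (MvPolynomial (Fin (d + 1)) k) K).toLinearMap
  have hf : Function.Injective f := IsFractionRing.injective (MvPolynomial (Fin (d + 1)) k) K
  let V : ℕ → Submodule k K := fun s => (homogeneousSubmodule (Fin (d + 1)) k s).map f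
  have hVfin : ∀ s, Module.Finite k (V s) := fun s => Module.Finite.map _ f
  have hVrank : ∀ s, Module.finrank k (V s) = (s + d).choose d := by
    intro s
    rw [← finrank_homogeneousSubmodule (k := k) d s]
    exact (LinearEquiv.finrank_eq (Submodule.equivMapOfInjective f hf _)).symm
  -- the maps `x ↦ Tr(x e_i)`
  let T : Fin D → (𝒜 t →ₗ[k] K) := fun i =>
    { toFun := fun x => Algebra.trace K L (algebraMap R L (x.1 * e i))
      map_add' := fun x z => by
        rw [Submodule.coe_add, add_mul, map_add, map_add]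
      map_smul' := fun c x => by
        rw [Submodule.coe_smul, smul_mul_assoc, Algebra.smul_def c, map_mul,
          ← IsScalarTower.algebraMap_apply, IsScalarTower.algebraMap_apply k K L,
          ← Algebra.smul_def, map_smul, RingHom.id_apply, algebraMap_smul] }
  have hT : ∀ i x, T i x ∈ V (t + a i) := by
    intro i x
    obtain ⟨p, hp, hp'⟩ := trace_homogeneous (K := K) (L := L) 𝒜 hy
      (SetLike.mul_mem_graded x.2 (he i)) (hint _)
    exact ⟨p, hp, hp'⟩
  let Φ : 𝒜 t →ₗ[k] (∀ i, V (t + a i)) := LinearMap.pi (fun i => (T i).codRestrict _ (hT i))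
  have hΦ : Function.Injective Φ := by
    rw [injective_iff_map_eq_zero]
    intro x hx
    have h1 : ∀ i, Algebra.trace K L (algebraMap R L x.1 * algebraMap R L (e i)) = 0 := by
      intro i
      have h2 := congr_fun hx i
      have h3 : ((Φ x i : V (t + a i)) : K) = 0 := by rw [h2]; rfl
      rw [← map_mul]
      exact h3
    have hspan : Submodule.span K (Set.range fun i => algebraMap R L (e i)) = ⊤ := by
      apply hind.span_eq_top_of_card_eq_finrank'
      rw [Fintype.card_fin, hD]
    have h4 : ∀ z : L, Algebra.traceForm K L (algebraMap R L x.1) z = 0 := by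
      intro z
      have hz : z ∈ Submodule.span K (Set.range fun i => algebraMap R L (e i)) :=
        hspan ▸ Submodule.mem_top
      induction hz using Submodule.span_induction with
      | mem z hz =>
        obtain ⟨i, rfl⟩ := hz
        rw [Algebra.traceForm_apply]
        exact h1 i
      | zero => simp
      | add u v _ _ hu hv => rw [map_add, hu, hv, add_zero]
      | smul c u _ hu => rw [map_smul, hu, smul_zero]
    have h5 : algebraMap R L x.1 = 0 := (traceForm_nondegenerate K L).1 _ h4
    have h6 : x.1 = 0 := by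
      rwa [map_eq_zero_iff _ (IsFractionRing.injective R L)] at h5
    exact Subtype.ext h6
  have hfin : Module.Finite k (∀ i, V (t + a i)) := inferInstance
  have hfinA : Module.Finite k (𝒜 t) := Module.Finite.of_injective Φ hΦ
  refine ⟨hfinA, ?_⟩
  have h1 := LinearMap.finrank_le_finrank_of_injective hΦ
  rw [Module.finrank_pi_fintype] at h1
  simpa [hVrank] using h1

/-- **Lower bound** through independent elements. -/
theorem lower_bound {D : ℕ} (e : Fin D → R) (a : Fin D → ℕ)
    (he : ∀ i, e i ∈ 𝒜 (a i)) (hind : LinearIndependent K (fun i => algebraMap R L (e i)))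
    (t : ℕ) (hfin : Module.Finite k (𝒜 t)) :
    ∑ i with a i ≤ t, (t - a i + d).choose d ≤ Module.finrank k (𝒜 t) := by
  classical
  let S := {i : Fin D // a i ≤ t}
  let W : S → Type _ := fun i => homogeneousSubmodule (Fin (d + 1)) k (t - a i.1)
  have hmem : ∀ (i : S) (p : homogeneousSubmodule (Fin (d + 1)) k (t - a i.1)),
      algebraMap (MvPolynomial (Fin (d + 1)) k) R p.1 * e i.1 ∈ 𝒜 t := by
    intro i p
    have h1 := SetLike.mul_mem_graded (algebraMap_mem 𝒜 hy p.2) (he i.1)
    have h2 : t - a i.1 + a i.1 = t := Nat.sub_add_cancel i.2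
    rwa [h2] at h1
  let g : ∀ i : S, homogeneousSubmodule (Fin (d + 1)) k (t - a i.1) →ₗ[k] 𝒜 t := fun i =>
    { toFun := fun p => ⟨_, hmem i p⟩
      map_add' := fun p q => by
        apply Subtype.ext
        simp only [Submodule.coe_add, map_add, add_mul]
      map_smul' := fun c p => by
        apply Subtype.ext
        simp only [Submodule.coe_smul, RingHom.id_apply]
        rw [Algebra.smul_def c, map_mul, ← IsScalarTower.algebraMap_apply, mul_assoc,
          ← Algebra.smul_def] }
  let Φ : (∀ i : S, homogeneousSubmodule (Fin (d + 1)) k (t - a i.1)) →ₗ[k] 𝒜 t :=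
    ∑ i : S, (g i).comp (LinearMap.proj i)
  have hΦval : ∀ p, ((Φ p : 𝒜 t) : R)
      = ∑ i : S, algebraMap (MvPolynomial (Fin (d + 1)) k) R (p i).1 * e i.1 := by
    intro p
    simp only [Φ, LinearMap.sum_apply, LinearMap.comp_apply, LinearMap.proj_apply]
    rw [AddSubmonoidClass.coe_finsetSum]
    rfl
  have hΦ : Function.Injective Φ := by
    rw [injective_iff_map_eq_zero]
    intro p hp
    have h1 : ∑ i : S, algebraMap (MvPolynomial (Fin (d + 1)) k) K (p i).1 •
        algebraMap R L (e i.1) = 0 := by
      have h2 : algebraMap R L ((Φ p : 𝒜 t) : R) = 0 := by rw [hp]; simp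
      rw [hΦval, map_sum] at h2
      rw [← h2]
      refine Finset.sum_congr rfl (fun i _ => ?_)
      rw [map_mul, ← IsScalarTower.algebraMap_apply, IsScalarTower.algebraMap_apply
        (MvPolynomial (Fin (d + 1)) k) K L, ← Algebra.smul_def]
    have hind' : LinearIndependent K (fun i : S => algebraMap R L (e i.1)) :=
      hind.comp Subtype.val Subtype.val_injective
    have h3 := Fintype.linearIndependent_iff.1 hind' _ h1
    funext i
    have h4 := h3 i
    rw [map_eq_zero_iff _ (IsFractionRing.injective (MvPolynomial (Fin (d + 1)) k) K)] at h4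
    exact Subtype.ext h4
  have h1 := LinearMap.finrank_le_finrank_of_injective hΦ
  rw [Module.finrank_pi_fintype] at h1
  simp only [finrank_homogeneousSubmodule] at h1
  refine le_trans (le_of_eq ?_) h1
  exact (Finset.sum_subtype (Finset.univ.filter (fun i => a i ≤ t)) (by simp)
    (fun i => (t - a i + d).choose d))

end KL

/-- Bounds for the Hilbert function over a given linear Noether normalisation. -/
theorem bounds_of_noether {k R : Type*} [Field k] [CharZero k] [CommRing R] [IsDomain R]
    [Algebra k R] (𝒜 : ℕ → Submodule k R) [GradedAlgebra 𝒜] (hfin : (𝒜 1).FG)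
    (hgen : Algebra.adjoin k (𝒜 1 : Set R) = ⊤) {d : ℕ} {y : Fin (d + 1) → R}
    (hy : ∀ i, y i ∈ 𝒜 1) (hind : AlgebraicIndependent k y)
    (hint : ∀ x : R, IsIntegral (Algebra.adjoin k (Set.range y)) x) :
    ∃ D : ℕ, 1 ≤ D ∧ ∀ t, Module.Finite k (𝒜 t) ∧
      ∑ i ∈ Finset.range D with i ≤ t, (t - i + d).choose d ≤ Module.finrank k (𝒜 t) ∧
      Module.finrank k (𝒜 t) ≤ ∑ i ∈ Finset.range D, (t + i + d).choose d := by
  classical
  let A := MvPolynomial (Fin (d + 1)) k
  let _ : Algebra A R := (aeval y : A →ₐ[k] R).toRingHom.toAlgebra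
  have hAR : ∀ p : A, algebraMap A R p = aeval y p := fun p => rfl
  have : IsScalarTower k A R := IsScalarTower.of_algebraMap_eq (fun c => by
    rw [hAR, MvPolynomial.algebraMap_eq, algHom_C])
  have hinj : Function.Injective (algebraMap A R) := hind
  have : FaithfulSMul A R := (faithfulSMul_iff_algebraMap_injective A R).2 hinj
  have : Module.IsTorsionFree A R := inferInstance
  have hintA : ∀ x : R, IsIntegral A x := by
    intro x
    refine (hint x).map_of_comp_eq (hind.aevalEquiv.symm : _ →+* A) (RingHom.id R) ?_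
    ext s
    simp only [RingHom.comp_apply, RingHom.id_apply]
    rw [hAR]
    have := hind.aevalEquiv.apply_symm_apply s
    exact congrArg Subtype.val this
  have : Algebra.IsIntegral A R := ⟨hintA⟩
  have : Algebra.FiniteType k R := by
    refine ⟨?_⟩
    obtain ⟨s, hs⟩ := hfin
    refine ⟨s, ?_⟩
    rw [← Algebra.adjoin_span, hs, hgen]
  have : Algebra.FiniteType A R := Algebra.FiniteType.of_restrictScalars_finiteType k A R
  have : Module.Finite A R := Algebra.IsIntegral.finite
  let K := FractionRing A
  let L := FractionRing R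
  let _ : Algebra K L := FractionRing.liftAlgebra A L
  have : IsScalarTower A K L := FractionRing.isScalarTower_liftAlgebra A L
  have : FiniteDimensional K L := finiteDimensional_of_finite (R := R) A
  have : IsScalarTower k K L := IsScalarTower.of_algebraMap_eq (fun c => by
    rw [IsScalarTower.algebraMap_apply k A K, ← IsScalarTower.algebraMap_apply A K L,
      IsScalarTower.algebraMap_apply A R L, ← IsScalarTower.algebraMap_apply k A R,
      ← IsScalarTower.algebraMap_apply k R L])
  have : CharZero K := charZero_of_injective_algebraMap (algebraMap k K).injective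
  have hyA : ∀ i, algebraMap A R (X i) ∈ 𝒜 1 := by
    intro i
    rw [hAR, aeval_X]
    exact hy i
  obtain ⟨e, a, he, ha, hli⟩ := exists_indep (K := K) (L := L) 𝒜 hgen (Module.finrank K L) le_rfl
  refine ⟨Module.finrank K L, Module.finrank_pos, fun t => ?_⟩
  obtain ⟨hf, hup⟩ := upper_bound (K := K) (L := L) 𝒜 hyA hintA rfl e a he hli t
  refine ⟨hf, ?_, ?_⟩
  · refine le_trans ?_ (lower_bound (K := K) (L := L) 𝒜 hyA e a he hli t hf)
    rw [Finset.sum_filter, Finset.sum_filter, Finset.sum_range]
    refine Finset.sum_le_sum (fun i _ => ?_)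
    by_cases hi : (i : ℕ) ≤ t
    · rw [if_pos hi, if_pos ((ha i).trans hi)]
      exact Nat.choose_le_choose _ (by have := ha i; omega)
    · rw [if_neg hi]
      exact Nat.zero_le _
  · refine hup.trans ?_
    rw [Finset.sum_range]
    refine Finset.sum_le_sum (fun i _ => ?_)
    exact Nat.choose_le_choose _ (by have := ha i; omega)

/-- **Linear Noether normalisation**, with at least one variable if `R_1 ≠ 0`. -/
theorem exists_noether' {k R : Type*} [Field k] [Infinite k] [CommRing R] [IsDomain R]
    [Algebra k R] (𝒜 : ℕ → Submodule k R) [GradedAlgebra 𝒜] (hfin : (𝒜 1).FG)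
    (h1 : 𝒜 1 ≠ ⊥) (hgen : Algebra.adjoin k (𝒜 1 : Set R) = ⊤) :
    ∃ (d : ℕ) (y : Fin (d + 1) → R), (∀ i, y i ∈ 𝒜 1) ∧ AlgebraicIndependent k y ∧
      (∀ x : R, IsIntegral (Algebra.adjoin k (Set.range y)) x) := by
  classical
  obtain ⟨n, y, hy, hind, hint⟩ := exists_noether 𝒜 hfin hgen
  rcases n with _ | d
  · exfalso
    have hR : False := by
      obtain ⟨x, hx, hx0⟩ := Submodule.exists_mem_ne_zero_of_ne_bot h1
      have h2 : Algebra.adjoin k (Set.range y) = ⊥ := by
        rw [Set.range_eq_empty, Algebra.adjoin_empty]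
      obtain ⟨p, hp, hpx⟩ := hint x
      -- lift the relation to `k`
      have hxk : IsIntegral k x := by
        have h3 : ∀ s ∈ Algebra.adjoin k (Set.range y), IsIntegral (⊥ : Subalgebra k R) s := by
          intro s hs
          rw [h2] at hs
          exact isIntegral_algebraMap (R := (⊥ : Subalgebra k R)) (A := R) (x := ⟨s, hs⟩)
        have h4 : IsIntegral (⊥ : Subalgebra k R) x := isIntegral_mono h3 (hint x)
        have : Algebra.IsIntegral k (⊥ : Subalgebra k R) := inferInstance
        exact isIntegral_trans x h4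
      obtain ⟨q, hq, hqx⟩ := hxk
      have h5 : x ^ q.natDegree = 0 := by
        have h6 : (DirectSum.decompose 𝒜 (Polynomial.aeval x q) q.natDegree : R)
            = x ^ q.natDegree := by
          rw [Polynomial.aeval_eq_sum_range, DirectSum.decompose_sum, DirectSum.sum_apply,
            AddSubmonoidClass.coe_finsetSum, Finset.sum_eq_single q.natDegree]
          · have h7 : q.coeff q.natDegree = 1 := hq
            rw [h7, one_smul]
            apply DirectSum.decompose_of_mem_same
            simpa using SetLike.pow_mem_graded q.natDegree hx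
          · intro j _ hj
            apply DirectSum.decompose_of_mem_ne (i := j) _ _ hj
            exact Submodule.smul_mem _ _ (by simpa using SetLike.pow_mem_graded j hx)
          · intro h
            exact absurd (Finset.mem_range.2 (Nat.lt_succ_self _)) h
        rw [← h6]
        have h8 : Polynomial.aeval x q = 0 := hqx
        rw [h8]
        simp
      exact hx0 (eq_zero_of_pow_eq_zero h5)
    exact hR
  · exact ⟨d, y, hy, hind, hint⟩

/-- **Uniform bounds for Hilbert functions**, together with a linear Noether normalisation. -/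
theorem hilbert_bounds' {k R : Type*} [Field k] [CharZero k] [CommRing R] [IsDomain R]
    [Algebra k R] (𝒜 : ℕ → Submodule k R) [GradedAlgebra 𝒜] (hfin : (𝒜 1).FG)
    (h1 : 𝒜 1 ≠ ⊥) (hgen : Algebra.adjoin k (𝒜 1 : Set R) = ⊤) :
    ∃ (d : ℕ) (y : Fin (d + 1) → R) (D : ℕ), (∀ i, y i ∈ 𝒜 1) ∧ AlgebraicIndependent k y ∧
      (∀ x : R, IsIntegral (Algebra.adjoin k (Set.range y)) x) ∧ 1 ≤ D ∧
      ∀ t, Module.Finite k (𝒜 t) ∧
      ∑ i ∈ Finset.range D with i ≤ t, (t - i + d).choose d ≤ Module.finrank k (𝒜 t) ∧
      Module.finrank k (𝒜 t) ≤ ∑ i ∈ Finset.range D, (t + i + d).choose d := by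
  obtain ⟨d, y, hy, hind, hint⟩ := exists_noether' 𝒜 hfin h1 hgen
  obtain ⟨D, hD, h⟩ := bounds_of_noether 𝒜 hfin hgen hy hind hint
  exact ⟨d, y, D, hy, hind, hint, hD, h⟩

/-- **Uniform bounds for Hilbert functions.** -/
theorem hilbert_bounds {k R : Type*} [Field k] [CharZero k] [CommRing R] [IsDomain R]
    [Algebra k R] (𝒜 : ℕ → Submodule k R) [GradedAlgebra 𝒜] (hfin : (𝒜 1).FG)
    (h1 : 𝒜 1 ≠ ⊥) (hgen : Algebra.adjoin k (𝒜 1 : Set R) = ⊤) :
    ∃ d D : ℕ, 1 ≤ D ∧ ∀ t, Module.Finite k (𝒜 t) ∧
      ∑ i ∈ Finset.range D with i ≤ t, (t - i + d).choose d ≤ Module.finrank k (𝒜 t) ∧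
      Module.finrank k (𝒜 t) ≤ ∑ i ∈ Finset.range D, (t + i + d).choose d := by
  obtain ⟨d, y, D, _, _, _, hD, h⟩ := hilbert_bounds' 𝒜 hfin h1 hgen
  exact ⟨d, D, hD, h⟩

end Vale.Agent.P271.Hilb
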