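import Mathlib

/-!
# Base point freeness of large multiples of an ample line bundle, algebraically

`R` a graded algebra of finite type over the field `k = R_0` such that at every maximal ideal
different from the vertex some `s ∈ R_j` and `s' ∈ R_{j+1}` are both non-zero.

* `exists_q0`: for all `q ≥ q0` and all large `M`, `R_{q+M} = R_q * R_M`.
-/

set_option linter.unusedSectionVars false

namespace Vale.Agent.P271.Hilb

open MvPolynomial

variable {k R : Type*} [Field k] [CommRing R] [Algebra k R] (A : ℕ → Submodule k R)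
  [GradedAlgebra A]

/-- homogeneous generators of positive degree -/
theorem exists_gens [Algebra.FiniteType k R] (h0 : ∀ a ∈ A 0, ∃ c : k, algebraMap k R c = a) :
    ∃ (n : ℕ) (x : Fin n → R) (w : Fin n → ℕ), (∀ i, 1 ≤ w i) ∧ (∀ i, x i ∈ A (w i)) ∧
      Algebra.adjoin k (Set.range x) = ⊤ := by
  classical
  obtain ⟨F, hF⟩ := Algebra.FiniteType.out (R := k) (A := R)
  let ι₀ := Σ (x : F), (DirectSum.decompose A x.1).support
  let T : Finset ι₀ := Finset.univ.filter (fun i => 1 ≤ (i.2 : ℕ))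
  let e := T.equivFin
  let X : ι₀ → R := fun i => ((DirectSum.decompose A i.1.1) i.2 : R)
  refine ⟨T.card, fun j => X (e.symm j).1, fun j => ((e.symm j).1.2 : ℕ), ?_, ?_, ?_⟩
  · intro j
    exact (Finset.mem_filter.1 (e.symm j).2).2
  · intro j
    exact (DirectSum.decompose A (e.symm j).1.1.1 _).2
  · rw [← top_le_iff, ← hF, Algebra.adjoin_le_iff]
    intro s hs
    rw [← DirectSum.sum_support_decompose A s]
    refine sum_mem fun n hn => ?_
    by_cases h1 : 1 ≤ n
    · refine Algebra.subset_adjoin ?_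
      let i : ι₀ := ⟨⟨s, hs⟩, ⟨n, hn⟩⟩
      have hi : i ∈ T := Finset.mem_filter.2 ⟨Finset.mem_univ _, h1⟩
      refine ⟨e ⟨i, hi⟩, ?_⟩
      simp only [Equiv.symm_apply_apply]
      rfl
    · have h2 : n = 0 := by omega
      subst h2
      obtain ⟨c, hc⟩ := h0 _ (DirectSum.decompose A s 0).2
      rw [← hc]
      exact Subalgebra.algebraMap_mem _ c

/-- `A M` is spanned by the monomials of weight `M`. -/
theorem mem_span_monomials {n : ℕ} {x : Fin n → R} {w : Fin n → ℕ} (hx : ∀ i, x i ∈ A (w i))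
    (hgen : Algebra.adjoin k (Set.range x) = ⊤) {M : ℕ} {a : R} (ha : a ∈ A M) :
    a ∈ Submodule.span k {b : R | ∃ α : Fin n → ℕ, ∑ i, α i * w i = M ∧ b = ∏ i, x i ^ α i} := by
  classical
  have hmem : a ∈ Algebra.adjoin k (Set.range x) := hgen ▸ Algebra.mem_top
  rw [Algebra.adjoin_range_eq_range_aeval] at hmem
  obtain ⟨p, hp⟩ := hmem
  have h1 : a = (DirectSum.decompose A a M : R) := (DirectSum.decompose_of_mem_same A ha).symm
  have hmon : ∀ α : Fin n →₀ ℕ, (∏ i, x i ^ α i) ∈ A (∑ i, α i * w i) := by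
    intro α
    refine SetLike.prod_mem_graded _ _ _ (fun j _ => ?_)
    have := SetLike.pow_mem_graded (α j) (hx j)
    rwa [smul_eq_mul] at this
  rw [h1, ← hp]
  have hp' : (aeval x : MvPolynomial (Fin n) k →ₐ[k] R) p
      = ∑ α ∈ p.support, (coeff α p) • ∏ i, x i ^ α i := by
    conv_lhs => rw [p.as_sum, map_sum]
    refine Finset.sum_congr rfl (fun α _ => ?_)
    rw [aeval_monomial, Finsupp.prod_fintype _ _ (fun i => pow_zero _), Algebra.smul_def]
  change (DirectSum.decompose A ((aeval x : MvPolynomial (Fin n) k →ₐ[k] R) p) M : R) ∈ _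
  rw [hp', DirectSum.decompose_sum, DirectSum.sum_apply, AddSubmonoidClass.coe_finsetSum]
  refine Submodule.sum_mem _ (fun α _ => ?_)
  by_cases hα : ∑ i, α i * w i = M
  · rw [DirectSum.decompose_of_mem_same A (hα ▸ Submodule.smul_mem _ _ (hmon α))]
    exact Submodule.smul_mem _ _ (Submodule.subset_span ⟨α, hα, rfl⟩)
  · rw [DirectSum.decompose_of_mem_ne A (Submodule.smul_mem _ _ (hmon α)) hα]
    exact Submodule.zero_mem _

/-- the graded pieces are finite dimensional -/
theorem piece_fg [Algebra.FiniteType k R] (h0 : ∀ a ∈ A 0, ∃ c : k, algebraMap k R c = a)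
    (M : ℕ) : (A M).FG := by
  classical
  obtain ⟨n, x, w, hw, hx, hgen⟩ := exists_gens A h0
  set S : Set R := {b : R | ∃ α : Fin n → ℕ, ∑ i, α i * w i = M ∧ b = ∏ i, x i ^ α i} with hS
  have h1 : A M = Submodule.span k S := by
    apply le_antisymm
    · intro a ha
      exact mem_span_monomials A hx hgen ha
    · rw [Submodule.span_le]
      rintro _ ⟨α, hα, rfl⟩
      have : (∏ i, x i ^ α i) ∈ A (∑ i, α i * w i) := by
        refine SetLike.prod_mem_graded _ _ _ (fun j _ => ?_)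
        have := SetLike.pow_mem_graded (α j) (hx j)
        rwa [smul_eq_mul] at this
      rwa [hα] at this
  rw [h1]
  apply Submodule.fg_span
  have h2 : S ⊆ (fun α : Fin n → ℕ => ∏ i, x i ^ α i) '' (Set.Iic (fun _ => M)) := by
    rintro _ ⟨α, hα, rfl⟩
    refine ⟨α, ?_, rfl⟩
    intro i
    calc α i ≤ α i * w i := Nat.le_mul_of_pos_right _ (hw i)
      _ ≤ ∑ i, α i * w i := Finset.single_le_sum (f := fun i => α i * w i)
          (fun _ _ => Nat.zero_le _) (Finset.mem_univ i)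
      _ = M := hα
  exact (Set.Finite.image _ (Set.finite_Iic _)).subset h2

/-- if a power of every generator lies in `J`, then so does `A M` for large `M` -/
theorem exists_le_of_pow_mem {n : ℕ} {x : Fin n → R} {w : Fin n → ℕ} (hx : ∀ i, x i ∈ A (w i))
    (hgen : Algebra.adjoin k (Set.range x) = ⊤) {J : Ideal R}
    (hJ : ∀ i, ∃ e, x i ^ e ∈ J) : ∃ M0, ∀ M ≥ M0, ∀ a ∈ A M, a ∈ J := by
  classical
  choose e he using hJ
  refine ⟨∑ i, e i * w i + 1, fun M hM a ha => ?_⟩
  have h1 := mem_span_monomials A hx hgen ha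
  have h2 : Submodule.span k {b : R | ∃ α : Fin n → ℕ, ∑ i, α i * w i = M ∧ b = ∏ i, x i ^ α i}
      ≤ J.restrictScalars k := by
    rw [Submodule.span_le]
    rintro _ ⟨α, hα, rfl⟩
    obtain ⟨i, hi⟩ : ∃ i, e i ≤ α i := by
      by_contra hcon
      push Not at hcon
      have : ∑ i, α i * w i ≤ ∑ i, e i * w i :=
        Finset.sum_le_sum (fun i _ => Nat.mul_le_mul_right _ (hcon i).le)
      omega
    change ∏ i, x i ^ α i ∈ J
    rw [← Finset.mul_prod_erase _ _ (Finset.mem_univ i)]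
    refine J.mul_mem_right _ ?_
    rw [← Nat.sub_add_cancel hi, pow_add]
    exact J.mul_mem_left _ (he i)
  exact h2 h1

/-- homogeneous elements of the ideal generated by `A q` -/
theorem mem_mul_of_mem_span {q M : ℕ} {a : R} (ha : a ∈ A (q + M))
    (haq : a ∈ Ideal.span (A q : Set R)) : a ∈ A q * A M := by
  classical
  have h1 : ∀ b ∈ Ideal.span (A q : Set R), (DirectSum.decompose A b (q + M) : R) ∈ A q * A M := by
    intro b hb
    obtain ⟨n, f, g, rfl⟩ := Submodule.mem_span_set'.1 hb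
    rw [DirectSum.decompose_sum, DirectSum.sum_apply, AddSubmonoidClass.coe_finsetSum]
    refine Submodule.sum_mem _ (fun i _ => ?_)
    rw [smul_eq_mul, DirectSum.coe_decompose_mul_of_right_mem_of_le A (g i).2 (Nat.le_add_right _ _),
      Nat.add_sub_cancel_left, mul_comm (DirectSum.decompose A (f i) M : R)]
    exact Submodule.mul_mem_mul (g i).2 (DirectSum.decompose A (f i) M).2
  have h2 := h1 a haq
  rwa [DirectSum.decompose_of_mem_same A ha] at h2

lemma exists_rep (j q : ℕ) (h : j * j ≤ q) : ∃ a b, q = j * a + (j + 1) * b := by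
  rcases Nat.eq_zero_or_pos j with rfl | hj
  · exact ⟨0, q, by ring⟩
  · have h1 : j ≤ q / j := (Nat.le_div_iff_mul_le hj).2 h
    have h2 : q % j < j := Nat.mod_lt _ hj
    refine ⟨q / j - q % j, q % j, ?_⟩
    have h3 := Nat.div_add_mod q j
    obtain ⟨c, hc⟩ : ∃ c, q / j = q % j + c := ⟨q / j - q % j, by omega⟩
    rw [hc, Nat.add_sub_cancel_left]
    rw [hc] at h3
    nlinarith

variable (hfree : ∀ (p : Ideal R) [p.IsMaximal], (∃ j > 0, ∃ s ∈ A j, s ∉ p) →
    ∃ j, ∃ s ∈ A j, ∃ s' ∈ A (j + 1), s ∉ p ∧ s' ∉ p)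

include hfree in
/-- **Large multiples are base point free.** -/
theorem exists_bpf [IsNoetherianRing R] : ∃ q0, 1 ≤ q0 ∧ ∀ q ≥ q0, ∀ (p : Ideal R) [p.IsMaximal],
    (∃ j > 0, ∃ s ∈ A j, s ∉ p) → ∃ s ∈ A q, s ∉ p := by
  classical
  set T : Set R := {x | ∃ j, ∃ s ∈ A j, ∃ s' ∈ A (j + 1), x = s * s'} with hT
  have hfg : (Submodule.span R T).FG := IsNoetherian.noetherian _
  obtain ⟨T', hT', hspan⟩ := Submodule.fg_span_iff_fg_span_finset_subset T |>.1 hfg
  have h1 : ∀ x : T', ∃ j, ∃ s ∈ A j, ∃ s' ∈ A (j + 1), (x : R) = s * s' := fun x => hT' x.2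
  choose j s hs s' hs' hx using h1
  set K := Finset.univ.sup j with hK
  refine ⟨K * K + 1, by omega, fun q hq p hp hrel => ?_⟩
  obtain ⟨x, hxp⟩ : ∃ x : T', (x : R) ∉ p := by
    by_contra hcon
    push Not at hcon
    have h2 : Submodule.span R T ≤ p := by
      rw [hspan, Submodule.span_le]
      intro y hy
      exact hcon ⟨y, hy⟩
    obtain ⟨i, u, hu, u', hu', h3, h4⟩ := hfree p hrel
    have h5 : u * u' ∈ p := h2 (Submodule.subset_span ⟨i, u, hu, u', hu', rfl⟩)
    rcases hp.isPrime.mem_or_mem h5 with h | h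
    · exact h3 h
    · exact h4 h
  rw [hx x] at hxp
  have hsp : s x ∉ p := fun h => hxp (p.mul_mem_right _ h)
  have hsp' : s' x ∉ p := fun h => hxp (p.mul_mem_left _ h)
  have hjK : j x ≤ K := Finset.le_sup (Finset.mem_univ x)
  obtain ⟨a, b, hab⟩ := exists_rep (j x) q (by nlinarith)
  refine ⟨s x ^ a * s' x ^ b, ?_, ?_⟩
  · have h6 := SetLike.mul_mem_graded (SetLike.pow_mem_graded a (hs x))
      (SetLike.pow_mem_graded b (hs' x))
    rw [smul_eq_mul, smul_eq_mul] at h6
    rw [hab, mul_comm (j x) a, mul_comm (j x + 1) b]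
    exact h6
  · intro h
    rcases hp.isPrime.mem_or_mem h with h | h
    · exact hsp (hp.isPrime.mem_of_pow_mem _ h)
    · exact hsp' (hp.isPrime.mem_of_pow_mem _ h)

include hfree in
/-- **`R_{q+M} = R_q R_M` for `q ≥ q0` and `M` large**, and `R_+ ⊆ √(R_q)`. -/
theorem exists_q0 [Algebra.FiniteType k R] (h0 : ∀ a ∈ A 0, ∃ c : k, algebraMap k R c = a) :
    ∃ q0, 1 ≤ q0 ∧ ∀ q ≥ q0,
      (∀ j > 0, ∀ s ∈ A j, s ∈ (Ideal.span (A q : Set R)).radical) ∧
      ∃ M0, ∀ M ≥ M0, A (q + M) ≤ A q * A M := by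
  classical
  have hnoe : IsNoetherianRing R := Algebra.FiniteType.isNoetherianRing k R
  have hjac : IsJacobsonRing R := isJacobsonRing_of_finiteType (A := k)
  obtain ⟨q0, hq0, hbpf⟩ := exists_bpf A hfree
  obtain ⟨n, x, w, hw, hx, hgen⟩ := exists_gens A h0
  refine ⟨q0, hq0, fun q hq => ?_⟩
  have hrad : ∀ j > 0, ∀ s ∈ A j, s ∈ (Ideal.span (A q : Set R)).radical := by
    intro j hj s hs
    rw [Ideal.radical_eq_jacobson, Ideal.jacobson, Submodule.mem_sInf]
    rintro p ⟨hp1, hp2⟩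
    by_contra hsp
    obtain ⟨u, hu, hup⟩ := hbpf q hq p ⟨j, hj, s, hs, hsp⟩
    exact hup (hp1 (Ideal.subset_span hu))
  refine ⟨hrad, ?_⟩
  obtain ⟨M0, hM0⟩ := exists_le_of_pow_mem A hx hgen (J := Ideal.span (A q : Set R))
    (fun i => by
      obtain ⟨e, he⟩ := hrad (w i) (hw i) (x i) (hx i)
      exact ⟨e, he⟩)
  refine ⟨M0, fun M hM a ha => ?_⟩
  exact mem_mul_of_mem_span A ha (hM0 (q + M) (by omega) a ha)

end Vale.Agent.P271.Hilb
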