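import Vale.Agent.P271.Hilb.Int
import Vale.Agent.P271.Hilb.GRing
import Vale.Agent.P271.H58.DropGraded
import Vale.Agent.P271.Deg.Num

/-!
# Hilbert functions of the prime quotients of the coordinate ring of a cone

`R` a graded algebra of finite type over `k = R_0`, with the line bundle property `hfree`.

* `exists_veronese`: arbitrarily large `m1` with `R_{m1 (t+1)} = R_{m1} R_{m1 t}` for all `t ≥ 1`,
  base point free.
* `hilb_tendsto`: for every prime `P` which does not contain `R_+` there are `d` and an integer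
  `ℓ ≥ 1` with `dim (R / P)_M / M ^ d → ℓ / d!` as `M → ∞`.
* `veronese_degree`: the degree of the `m1`-th Veronese is `ℓ * m1 ^ d`.
-/

set_option linter.unusedSectionVars false

namespace Vale.Agent.P271.Hilb

open Filter Topology
open Vale.Agent.P271.Drop (hilb)

variable {k R : Type*} [Field k] [CommRing R] [Algebra k R] (A : ℕ → Submodule k R)
  [GradedAlgebra A]

lemma mul_graded (s t : ℕ) : A s * A t ≤ A (s + t) :=
  Submodule.mul_le.2 fun _ hm _ hn => SetLike.mul_mem_graded hm hn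

lemma pow_graded (q c : ℕ) : A q ^ c ≤ A (q * c) := by
  induction c with
  | zero =>
    rw [pow_zero, mul_zero, Submodule.one_le]
    exact SetLike.one_mem_graded A
  | succ c ih =>
    rw [pow_succ, mul_add, mul_one]
    exact (mul_le_mulR _ ih).trans (mul_graded A _ _)

variable (hfree : ∀ (p : Ideal R) [p.IsMaximal], (∃ j > 0, ∃ s ∈ A j, s ∉ p) →
    ∃ j, ∃ s ∈ A j, ∃ s' ∈ A (j + 1), s ∉ p ∧ s' ∉ p)

include hfree in
/-- arbitrarily large standard graded Veronese subrings: for `q ≥ q0` all large multiples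
`m1 = q * c` work. -/
theorem exists_veronese [Algebra.FiniteType k R]
    (h0 : ∀ a ∈ A 0, ∃ c : k, algebraMap k R c = a) :
    ∃ q0, 1 ≤ q0 ∧ ∀ q ≥ q0,
      (∀ j > 0, ∀ s ∈ A j, s ∈ (Ideal.span (A q : Set R)).radical) ∧
      ∃ c0, 1 ≤ c0 ∧ ∀ c ≥ c0, ∀ t ≥ 1,
        A (q * c * (t + 1)) = A (q * c) * A (q * c * t) := by
  obtain ⟨q0, hq0, h⟩ := exists_q0 A hfree h0
  refine ⟨q0, hq0, fun q hq => ⟨(h q hq).1, ?_⟩⟩
  obtain ⟨M0, hM0⟩ := (h q hq).2
  refine ⟨M0 + 1, by omega, fun c hc t ht => ?_⟩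
  apply le_antisymm
  · have hq1 : 1 ≤ q := hq0.trans hq
    have key : ∀ i M, M0 ≤ M → A (q * i + M) ≤ A q ^ i * A M := by
      intro i
      induction i with
      | zero => intro M _; simp
      | succ i ih =>
        intro M hM
        have e1 : q * (i + 1) + M = q + (q * i + M) := by ring
        rw [e1]
        refine (hM0 _ (by omega)).trans ?_
        rw [pow_succ', mul_assoc]
        exact mul_le_mulL _ (ih M hM)
    have e2 : q * c * (t + 1) = q * c + q * c * t := by ring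
    rw [e2]
    have hM : M0 ≤ q * c * t := by
      calc M0 ≤ c := by omega
        _ ≤ q * c := Nat.le_mul_of_pos_left _ hq1
        _ ≤ q * c * t := Nat.le_mul_of_pos_right _ ht
    exact (key c _ hM).trans (mul_le_mulR _ (pow_graded A q c))
  · refine (mul_graded A _ _).trans (le_of_eq ?_)
    congr 1
    ring

variable {P : Ideal R} [P.IsPrime]

include hfree in
/-- the data for `R / P` -/
theorem quot_data [Algebra.FiniteType k R]
    (h0 : ∀ a ∈ A 0, ∃ c : k, algebraMap k R c = a) (hP : ∃ j > 0, ∃ s ∈ A j, s ∉ P) :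
    ∃ q0, 1 ≤ q0 ∧ ∀ q ≥ q0,
      (A q).map (Ideal.Quotient.mkₐ k P).toLinearMap ≠ ⊥ ∧
      ∃ c, ∀ t ≥ c, (A (q * (t + 1))).map (Ideal.Quotient.mkₐ k P).toLinearMap ≤
        (A q).map (Ideal.Quotient.mkₐ k P).toLinearMap *
          (A (q * t)).map (Ideal.Quotient.mkₐ k P).toLinearMap := by
  obtain ⟨q0, hq0, h⟩ := exists_q0 A hfree h0
  refine ⟨q0, hq0, fun q hq => ⟨?_, ?_⟩⟩
  · intro hbot
    obtain ⟨j, hj, s, hs, hsP⟩ := hP
    apply hsP
    have h1 : Ideal.span (A q : Set R) ≤ P := by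
      rw [Ideal.span_le]
      intro a ha
      have h2 : (Ideal.Quotient.mkₐ k P) a ∈ (A q).map (Ideal.Quotient.mkₐ k P).toLinearMap :=
        ⟨a, ha, rfl⟩
      rw [hbot, Submodule.mem_bot] at h2
      exact Ideal.Quotient.eq_zero_iff_mem.1 h2
    exact (Ideal.IsPrime.radical_le_iff inferInstance).2 h1 ((h q hq).1 j hj s hs)
  · obtain ⟨M0, hM0⟩ := (h q hq).2
    refine ⟨M0, fun t ht => ?_⟩
    rw [← Submodule.map_mul]
    apply Submodule.map_mono
    have e1 : q * (t + 1) = q + q * t := by ring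
    rw [e1]
    refine hM0 _ ?_
    calc M0 ≤ t := ht
      _ ≤ q * t := Nat.le_mul_of_pos_left _ (hq0.trans hq)

include hfree in
/-- **Integrality**: `dim (R/P)_M ~ ℓ M ^ d / d!` with an integer `ℓ ≥ 1`. -/
theorem hilb_tendsto [Infinite k] [Algebra.FiniteType k R]
    (h0 : ∀ a ∈ A 0, ∃ c : k, algebraMap k R c = a) (hP : ∃ j > 0, ∃ s ∈ A j, s ∉ P) :
    ∃ d ℓ : ℕ, 1 ≤ ℓ ∧ Tendsto (fun M : ℕ => (hilb A P M : ℝ) / (M : ℝ) ^ d) atTop
      (𝓝 ((ℓ : ℝ) / d.factorial)) := by
  classical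
  obtain ⟨q0, hq0, h⟩ := quot_data A hfree h0 hP
  set V : ℕ → Submodule k (R ⧸ P) := fun M => (A M).map (Ideal.Quotient.mkₐ k P).toLinearMap
    with hV
  have hmul : ∀ s t, V s * V t ≤ V (s + t) := by
    intro s t
    rw [hV]
    simp only
    rw [← Submodule.map_mul]
    exact Submodule.map_mono (mul_graded A s t)
  have hfg : ∀ t, (V t).FG := fun t => (piece_fg A h0 t).map _
  have hfin : ∀ t, Module.Finite k (V t) := fun t => Module.Finite.iff_fg.2 (hfg t)
  -- monotonicity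
  have hmono : ∀ M j, q0 ≤ j → Module.finrank k (V M) ≤ Module.finrank k (V (M + j)) := by
    intro M j hj
    obtain ⟨v, hv, hv0⟩ := Submodule.exists_mem_ne_zero_of_ne_bot (h j hj).1
    have hinj : Function.Injective (LinearMap.mulRight k v) := by
      rw [injective_iff_map_eq_zero]
      intro x hx
      rw [LinearMap.mulRight_apply] at hx
      exact (mul_eq_zero.1 hx).resolve_right hv0
    have h1 : (V M).map (LinearMap.mulRight k v) ≤ V (M + j) := by
      rintro _ ⟨x, hx, rfl⟩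
      exact hmul _ _ (Submodule.mul_mem_mul hx hv)
    rw [(Submodule.equivMapOfInjective _ hinj (V M)).finrank_eq]
    exact Submodule.finrank_mono h1
  obtain ⟨d, D, hD, hlim⟩ := veronese_tendsto V hmul hfg (h q0 le_rfl).1 (h q0 le_rfl).2
  obtain ⟨ℓ, hℓ, hDℓ⟩ := degree_dvd V hmul hfg (p := q0) (q := q0 + 1) hq0 (by omega)
    (by simp) (h (q0 + 1) (by omega)).1 (h (q0 + 1) (by omega)).2 hD hlim
  refine ⟨d, ℓ, hℓ, ?_⟩
  have hN : ∀ M, hilb A P M = Module.finrank k (V M) := fun M => rfl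
  simp only [hN]
  have hq0R : (0 : ℝ) < q0 := by exact_mod_cast hq0
  -- the two comparison sequences
  have hcomp : ∀ g : ℕ → ℕ, ∀ C : ℕ, (∀ᶠ M in atTop, M ≤ q0 * g M + C ∧ q0 * g M ≤ M + C) →
      Tendsto (fun M : ℕ => (Module.finrank k (V (q0 * g M)) : ℝ) / (M : ℝ) ^ d) atTop
        (𝓝 ((ℓ : ℝ) / d.factorial)) := by
    intro g C hg
    have hgtop : Tendsto g atTop atTop := by
      rw [tendsto_atTop]
      intro b
      filter_upwards [hg, eventually_ge_atTop (q0 * b + C)] with M h1 h2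
      have h3 : q0 * b ≤ q0 * g M := by omega
      exact Nat.le_of_mul_le_mul_left h3 hq0
    have h1 := hlim.comp hgtop
    have h2 : Tendsto (fun M : ℕ => (g M : ℝ) / (M : ℝ)) atTop (𝓝 (1 / (q0 : ℝ))) := by
      have h3 : Tendsto (fun M : ℕ => ((C : ℝ) / q0) / (M : ℝ)) atTop (𝓝 0) :=
        tendsto_const_div_atTop_nhds_zero_nat _
      refine tendsto_of_tendsto_of_tendsto_of_le_of_le'
        (g := fun M : ℕ => 1 / (q0 : ℝ) - ((C : ℝ) / q0) / (M : ℝ))
        (h := fun M : ℕ => 1 / (q0 : ℝ) + ((C : ℝ) / q0) / (M : ℝ)) ?_ ?_ ?_ ?_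
      · simpa using h3.const_sub (1 / (q0 : ℝ))
      · simpa using h3.const_add (1 / (q0 : ℝ))
      · filter_upwards [hg, eventually_ge_atTop 1] with M h4 h5
        have hM : (0 : ℝ) < M := by exact_mod_cast h5
        have h6 : (M : ℝ) ≤ q0 * g M + C := by exact_mod_cast h4.1
        rw [sub_le_iff_le_add, ← add_div, div_le_div_iff₀ hq0R hM, one_mul]
        have : ((g M : ℝ) + C / q0) * q0 = q0 * g M + C := by field_simp
        rw [this]
        exact h6
      · filter_upwards [hg, eventually_ge_atTop 1] with M h4 h5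
        have hM : (0 : ℝ) < M := by exact_mod_cast h5
        have h6 : (q0 * g M : ℝ) ≤ M + C := by exact_mod_cast h4.2
        rw [div_add_div _ _ hq0R.ne' hM.ne', div_le_div_iff₀ hM (by positivity)]
        have h7 : (g M : ℝ) * (q0 * M) = (q0 * g M) * M := by ring
        have h8 : (1 * (M : ℝ) + q0 * (C / q0)) * M = (M + C) * M := by field_simp
        rw [h7, h8]
        exact mul_le_mul_of_nonneg_right h6 hM.le
    have h9 := h1.mul (h2.pow d)
    have h10 : (D : ℝ) / d.factorial * (1 / (q0 : ℝ)) ^ d = (ℓ : ℝ) / d.factorial := by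
      rw [hDℓ]
      push_cast
      rw [one_div, inv_pow]
      field_simp
    rw [h10] at h9
    refine h9.congr' ?_
    filter_upwards [hgtop.eventually_ge_atTop 1, eventually_ge_atTop 1] with M h4 h5
    have hM : (M : ℝ) ≠ 0 := by
      have : (0 : ℝ) < M := by exact_mod_cast h5
      exact this.ne'
    have hgM : (g M : ℝ) ≠ 0 := by
      have : (0 : ℝ) < g M := by exact_mod_cast h4
      exact this.ne'
    simp only [Function.comp_apply, div_pow]
    field_simp
  have hlow := hcomp (fun M => M / q0 - 1) (2 * q0) (by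
    filter_upwards [eventually_ge_atTop q0] with M hM
    have h3 := Nat.div_add_mod M q0
    have h4 : M % q0 < q0 := Nat.mod_lt _ hq0
    have h5 : 1 ≤ M / q0 := (Nat.le_div_iff_mul_le hq0).2 (by omega)
    obtain ⟨c, hc⟩ : ∃ c, M / q0 = c + 1 := ⟨M / q0 - 1, by omega⟩
    rw [hc] at h3 ⊢
    simp only [Nat.add_sub_cancel]
    have e1 : q0 * (c + 1) = q0 * c + q0 := by ring
    constructor <;> omega)
  have hhigh := hcomp (fun M => M / q0 + 2) (2 * q0) (by
    filter_upwards [eventually_ge_atTop q0] with M hM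
    have h3 := Nat.div_add_mod M q0
    have h4 : M % q0 < q0 := Nat.mod_lt _ hq0
    have e1 : q0 * (M / q0 + 2) = q0 * (M / q0) + 2 * q0 := by ring
    constructor <;> omega)
  refine tendsto_of_tendsto_of_tendsto_of_le_of_le' hlow hhigh ?_ ?_
  · filter_upwards [eventually_ge_atTop q0] with M hM
    have h3 := Nat.div_add_mod M q0
    have h5 : 1 ≤ M / q0 := (Nat.le_div_iff_mul_le hq0).2 (by omega)
    obtain ⟨c, hc⟩ : ∃ c, M / q0 = c + 1 := ⟨M / q0 - 1, by omega⟩
    have h6 : M = q0 * (M / q0 - 1) + (q0 + M % q0) := by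
      rw [hc] at h3 ⊢
      simp only [Nat.add_sub_cancel]
      nlinarith
    have h7 := hmono (q0 * (M / q0 - 1)) (q0 + M % q0) (by omega)
    rw [← h6] at h7
    exact div_le_div_of_nonneg_right (by exact_mod_cast h7) (by positivity)
  · filter_upwards [eventually_ge_atTop q0] with M hM
    have h3 := Nat.div_add_mod M q0
    have h4 : M % q0 < q0 := Nat.mod_lt _ hq0
    have h6 : q0 * (M / q0 + 2) = M + (2 * q0 - M % q0) := by
      have : q0 * (M / q0 + 2) = q0 * (M / q0) + 2 * q0 := by ring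
      omega
    have h7 := hmono M (2 * q0 - M % q0) (by omega)
    rw [← h6] at h7
    exact div_le_div_of_nonneg_right (by exact_mod_cast h7) (by positivity)

include hfree in
/-- **The degree of the `m1`-th Veronese** of `R / P` is `ℓ * m1 ^ d`. -/
theorem veronese_degree [Infinite k] [Algebra.FiniteType k R]
    (h0 : ∀ a ∈ A 0, ∃ c : k, algebraMap k R c = a) (hP : ∃ j > 0, ∃ s ∈ A j, s ∉ P)
    {m1 d D : ℕ} (hm1 : 1 ≤ m1) (hD : 1 ≤ D)
    (hTS : Deg.TwoSided d D (fun t => hilb A P (m1 * t))) :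
    ∃ ℓ, 1 ≤ ℓ ∧ D = ℓ * m1 ^ d ∧ Tendsto (fun M : ℕ => (hilb A P M : ℝ) / (M : ℝ) ^ d) atTop
      (𝓝 ((ℓ : ℝ) / d.factorial)) := by
  obtain ⟨d', ℓ, hℓ, hlim⟩ := hilb_tendsto A hfree h0 hP
  have h1 := tendsto_of_hilbert_bounds hTS
  have h2 := growth_comp hm1 hlim
  have hD0 : (0 : ℝ) < D := by exact_mod_cast hD
  have hℓ0 : (0 : ℝ) < ℓ := by exact_mod_cast hℓ
  have hm0 : (0 : ℝ) < m1 := by exact_mod_cast hm1
  obtain ⟨hd, hval⟩ := growth_unique (f := fun t => (hilb A P (m1 * t) : ℝ)) (by positivity)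
    (by positivity) h1 h2
  subst hd
  refine ⟨ℓ, hℓ, ?_, hlim⟩
  have h5 : (d.factorial : ℝ) ≠ 0 := by positivity
  rw [div_left_inj' h5] at hval
  exact_mod_cast hval

end Vale.Agent.P271.Hilb
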