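import Vale.Agent.P271.Hilb.IVer

/-!
# Integrality of the degree

* `tendsto_of_sandwich`, `tendsto_of_hilbert_bounds`: from two sided bounds to the limit
  `N t / t ^ d → D / d!`.
* `veronese_tendsto`: the growth of `dim V (p t)`.
* `coprime_growth`: if `N (p t) / t ^ d → D / d!` and `N (q t) / t ^ d' → D' / d'!` with coprime
  `p, q`, then `d = d'`, `D = ℓ p ^ d`, `D' = ℓ q ^ d`.
* `degree_dvd`: `p ^ d` divides the degree `D` of the `p`-th Veronese.
-/

set_option linter.unusedSectionVars false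

namespace Vale.Agent.P271.Hilb

open Filter Topology

lemma choose_lower (t d : ℕ) : t ^ d ≤ d.factorial * (t + d).choose d := by
  rw [← Nat.ascFactorial_eq_factorial_mul_choose]
  exact (Nat.pow_le_pow_left (Nat.le_succ t) d).trans (Nat.pow_succ_le_ascFactorial _ _)

lemma choose_upper (t d : ℕ) : d.factorial * (t + d).choose d ≤ (t + d) ^ d := by
  rw [← Nat.ascFactorial_eq_factorial_mul_choose]
  exact Nat.ascFactorial_le_pow_add _ _

lemma tendsto_ratio_pow (d : ℕ) (a : ℝ) :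
    Tendsto (fun t : ℕ => (((t : ℝ) + a) / t) ^ d) atTop (𝓝 1) := by
  have h1 : Tendsto (fun t : ℕ => ((t : ℝ) + a) / t) atTop (𝓝 1) := by
    have h2 : Tendsto (fun t : ℕ => 1 + a / (t : ℝ)) atTop (𝓝 (1 + 0)) :=
      tendsto_const_nhds.add (tendsto_const_div_atTop_nhds_zero_nat a)
    rw [add_zero] at h2
    refine h2.congr' ?_
    filter_upwards [eventually_ge_atTop 1] with t ht
    have : (t : ℝ) ≠ 0 := by positivity
    field_simp
  simpa using h1.pow d

lemma tendsto_of_sandwich {f : ℕ → ℕ} {d D c b : ℕ}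
    (hlo : ∀ t ≥ c, (D : ℝ) * ((t : ℝ) - c) ^ d ≤ d.factorial * f t)
    (hup : ∀ t ≥ c, (d.factorial : ℝ) * f t ≤ D * ((t : ℝ) + b) ^ d) :
    Tendsto (fun t : ℕ => (f t : ℝ) / (t : ℝ) ^ d) atTop (𝓝 ((D : ℝ) / d.factorial)) := by
  have hfac : (0 : ℝ) < d.factorial := by positivity
  have h1 : Tendsto (fun t : ℕ => (D : ℝ) / d.factorial * (((t : ℝ) + (-c)) / t) ^ d) atTop
      (𝓝 ((D : ℝ) / d.factorial)) := by
    simpa using (tendsto_ratio_pow d (-c)).const_mul ((D : ℝ) / d.factorial)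
  have h2 : Tendsto (fun t : ℕ => (D : ℝ) / d.factorial * (((t : ℝ) + b) / t) ^ d) atTop
      (𝓝 ((D : ℝ) / d.factorial)) := by
    simpa using (tendsto_ratio_pow d b).const_mul ((D : ℝ) / d.factorial)
  refine tendsto_of_tendsto_of_tendsto_of_le_of_le' h1 h2 ?_ ?_
  · filter_upwards [eventually_ge_atTop (max c 1)] with t ht
    have ht0 : (0 : ℝ) < t := by
      have : 1 ≤ t := le_trans (le_max_right _ _) ht
      positivity
    have h := hlo t (le_trans (le_max_left _ _) ht)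
    rw [div_pow, div_mul_div_comm, div_le_div_iff₀ (by positivity) (by positivity)]
    have h3 : (D : ℝ) * ((t : ℝ) + (-c)) ^ d * (t : ℝ) ^ d ≤ d.factorial * f t * (t : ℝ) ^ d := by
      rw [← sub_eq_add_neg]
      exact mul_le_mul_of_nonneg_right h (by positivity)
    linarith
  · filter_upwards [eventually_ge_atTop (max c 1)] with t ht
    have ht0 : (0 : ℝ) < t := by
      have : 1 ≤ t := le_trans (le_max_right _ _) ht
      positivity
    have h := hup t (le_trans (le_max_left _ _) ht)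
    rw [div_pow, div_mul_div_comm, div_le_div_iff₀ (by positivity) (by positivity)]
    have h3 : (d.factorial : ℝ) * f t * (t : ℝ) ^ d ≤ (D : ℝ) * ((t : ℝ) + b) ^ d * (t : ℝ) ^ d :=
      mul_le_mul_of_nonneg_right h (by positivity)
    linarith

/-- the limit from the growth of a Veronese -/
lemma tendsto_of_growth {N : ℕ → ℕ} {d D b c : ℕ}
    (h : ∀ t, D * (t + d).choose d ≤ N (c + t) ∧ N (c + t) ≤ D * (t + b + d).choose d) :
    Tendsto (fun t : ℕ => (N t : ℝ) / (t : ℝ) ^ d) atTop (𝓝 ((D : ℝ) / d.factorial)) := by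
  refine tendsto_of_sandwich (c := c) (b := b + d) ?_ ?_
  · intro t ht
    obtain ⟨s, rfl⟩ := Nat.exists_eq_add_of_le ht
    have h1 := (h s).1
    have h2 := choose_lower s d
    have h3 : D * s ^ d ≤ d.factorial * N (c + s) := by
      calc D * s ^ d ≤ D * (d.factorial * (s + d).choose d) := Nat.mul_le_mul_left _ h2
        _ = d.factorial * (D * (s + d).choose d) := by ring
        _ ≤ d.factorial * N (c + s) := Nat.mul_le_mul_left _ h1
    have h4 : ((D * s ^ d : ℕ) : ℝ) ≤ ((d.factorial * N (c + s) : ℕ) : ℝ) := by exact_mod_cast h3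
    push_cast at h4 ⊢
    simpa using h4
  · intro t ht
    obtain ⟨s, rfl⟩ := Nat.exists_eq_add_of_le ht
    have h1 := (h s).2
    have h2 := choose_upper (s + b) d
    have h3 : d.factorial * N (c + s) ≤ D * (c + s + (b + d)) ^ d := by
      calc d.factorial * N (c + s) ≤ d.factorial * (D * (s + b + d).choose d) :=
            Nat.mul_le_mul_left _ h1
        _ = D * (d.factorial * (s + b + d).choose d) := by ring
        _ ≤ D * (s + b + d) ^ d := Nat.mul_le_mul_left _ h2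
        _ ≤ D * (c + s + (b + d)) ^ d :=
            Nat.mul_le_mul_left _ (Nat.pow_le_pow_left (by omega) _)
    have h4 : ((d.factorial * N (c + s) : ℕ) : ℝ) ≤ ((D * (c + s + (b + d)) ^ d : ℕ) : ℝ) := by
      exact_mod_cast h3
    push_cast at h4 ⊢
    exact h4

/-- the limit from the two sided bounds of `hilbert_bounds` -/
theorem tendsto_of_hilbert_bounds {N : ℕ → ℕ} {d D : ℕ}
    (h : ∀ t, ∑ i ∈ Finset.range D with i ≤ t, (t - i + d).choose d ≤ N t ∧
      N t ≤ ∑ i ∈ Finset.range D, (t + i + d).choose d) :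
    Tendsto (fun t : ℕ => (N t : ℝ) / (t : ℝ) ^ d) atTop (𝓝 ((D : ℝ) / d.factorial)) := by
  refine tendsto_of_growth (b := 2 * D) (c := D) (fun t => ⟨?_, ?_⟩)
  · refine le_trans ?_ (h (D + t)).1
    have h1 : Finset.filter (fun i => i ≤ D + t) (Finset.range D) = Finset.range D := by
      apply Finset.filter_true_of_mem
      intro i hi
      have := Finset.mem_range.1 hi
      omega
    rw [h1]
    calc D * (t + d).choose d = ∑ i ∈ Finset.range D, (t + d).choose d := by simp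
      _ ≤ _ := Finset.sum_le_sum (fun i hi => Nat.choose_le_choose _ (by
          have := Finset.mem_range.1 hi
          omega))
  · refine (h (D + t)).2.trans ?_
    calc _ ≤ ∑ i ∈ Finset.range D, (t + 2 * D + d).choose d :=
          Finset.sum_le_sum (fun i hi => Nat.choose_le_choose _ (by
            have := Finset.mem_range.1 hi
            omega))
      _ = D * (t + 2 * D + d).choose d := by simp

/-- two growth laws of the same function agree -/
lemma growth_unique {f : ℕ → ℝ} {d d' : ℕ} {a a' : ℝ} (ha : 0 < a) (ha' : 0 < a')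
    (h : Tendsto (fun t : ℕ => f t / (t : ℝ) ^ d) atTop (𝓝 a))
    (h' : Tendsto (fun t : ℕ => f t / (t : ℝ) ^ d') atTop (𝓝 a')) : d = d' ∧ a = a' := by
  have key : ∀ {d d' : ℕ} {a a' : ℝ}, 0 < a → 0 < a' →
      Tendsto (fun t : ℕ => f t / (t : ℝ) ^ d) atTop (𝓝 a) →
      Tendsto (fun t : ℕ => f t / (t : ℝ) ^ d') atTop (𝓝 a') → d' ≤ d := by
    intro d d' a a' ha ha' h h'
    by_contra hlt
    push Not at hlt
    obtain ⟨e, rfl⟩ := Nat.exists_eq_add_of_lt hlt
    have h1 : Tendsto (fun t : ℕ => (f t / (t : ℝ) ^ d) * (1 / (t : ℝ) ^ (e + 1))) atTop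
        (𝓝 (a * 0)) := by
      refine h.mul ?_
      have h2 : Tendsto (fun t : ℕ => ((t : ℝ) ^ (e + 1))) atTop atTop :=
        (tendsto_pow_atTop (by omega)).comp tendsto_natCast_atTop_atTop
      simp only [one_div]
      exact h2.inv_tendsto_atTop
    rw [mul_zero] at h1
    have h3 : Tendsto (fun t : ℕ => f t / (t : ℝ) ^ (d + e + 1)) atTop (𝓝 0) := by
      refine h1.congr (fun t => ?_)
      rw [div_mul_div_comm, mul_one, ← pow_add, add_assoc]
    exact ha'.ne' (tendsto_nhds_unique h' h3)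
  have hd : d = d' := le_antisymm (key ha' ha h' h) (key ha ha' h h')
  subst hd
  exact ⟨rfl, tendsto_nhds_unique h h'⟩

lemma growth_comp {N : ℕ → ℕ} {d D q : ℕ} (hq : 0 < q)
    (h : Tendsto (fun t : ℕ => (N t : ℝ) / (t : ℝ) ^ d) atTop (𝓝 ((D : ℝ) / d.factorial))) :
    Tendsto (fun t : ℕ => (N (q * t) : ℝ) / (t : ℝ) ^ d) atTop
      (𝓝 ((D : ℝ) * q ^ d / d.factorial)) := by
  have h1 : Tendsto (fun t : ℕ => q * t) atTop atTop := by
    apply tendsto_atTop_mono (f := fun t : ℕ => t) _ tendsto_id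
    intro t
    exact Nat.le_mul_of_pos_left t hq
  have h2 := (h.comp h1).const_mul ((q : ℝ) ^ d)
  have h3 : (q : ℝ) ^ d * ((D : ℝ) / d.factorial) = (D : ℝ) * q ^ d / d.factorial := by ring
  rw [h3] at h2
  refine h2.congr (fun t => ?_)
  simp only [Function.comp_apply, Nat.cast_mul]
  have hq' : (q : ℝ) ^ d ≠ 0 := by positivity
  rw [mul_pow]
  field_simp

/-- **Integrality of the degree.** -/
theorem coprime_growth {N : ℕ → ℕ} {p q d D d' D' : ℕ} (hp : 0 < p) (hq : 0 < q)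
    (hpq : Nat.Coprime p q) (hD : 1 ≤ D) (hD' : 1 ≤ D')
    (h : Tendsto (fun t : ℕ => (N (p * t) : ℝ) / (t : ℝ) ^ d) atTop
      (𝓝 ((D : ℝ) / d.factorial)))
    (h' : Tendsto (fun t : ℕ => (N (q * t) : ℝ) / (t : ℝ) ^ d') atTop
      (𝓝 ((D' : ℝ) / d'.factorial))) :
    d = d' ∧ ∃ ℓ, 1 ≤ ℓ ∧ D = ℓ * p ^ d ∧ D' = ℓ * q ^ d := by
  have h1 := growth_comp (N := fun t => N (p * t)) hq h
  have h2 := growth_comp (N := fun t => N (q * t)) hp h'
  have h3 : ∀ t, p * (q * t) = q * (p * t) := fun t => by ring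
  simp only [h3] at h1
  have hD0 : (0 : ℝ) < D := by exact_mod_cast hD
  have hD0' : (0 : ℝ) < D' := by exact_mod_cast hD'
  obtain ⟨hd, hval⟩ := growth_unique (by positivity) (by positivity) h1 h2
  subst hd
  refine ⟨rfl, ?_⟩
  have h4 : D * q ^ d = D' * p ^ d := by
    have h5 : (d.factorial : ℝ) ≠ 0 := by positivity
    rw [div_left_inj' h5] at hval
    exact_mod_cast hval
  have h6 : p ^ d ∣ D := by
    have h7 : p ^ d ∣ D * q ^ d := ⟨D', by rw [h4]; ring⟩
    exact (Nat.Coprime.pow d d hpq).dvd_of_dvd_mul_right h7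
  obtain ⟨ℓ, hℓ⟩ := h6
  refine ⟨ℓ, ?_, by rw [hℓ]; ring, ?_⟩
  · rcases Nat.eq_zero_or_pos ℓ with h | h
    · subst h; omega
    · exact h
  · have h8 : p ^ d * (ℓ * q ^ d) = p ^ d * D' := by
      rw [mul_comm (p ^ d) D', ← h4, hℓ]; ring
    exact (Nat.eq_of_mul_eq_mul_left (by positivity) h8).symm

variable {k A : Type*} [Field k] [CommRing A] [IsDomain A] [Algebra k A]

theorem veronese_tendsto [Infinite k] (V : ℕ → Submodule k A)
    (hmul : ∀ s t, V s * V t ≤ V (s + t)) (hfg : ∀ t, (V t).FG) {p : ℕ} (hp0 : V p ≠ ⊥)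
    (hp : ∃ c, ∀ t ≥ c, V (p * (t + 1)) ≤ V p * V (p * t)) :
    ∃ d D : ℕ, 1 ≤ D ∧ Tendsto (fun t : ℕ => (Module.finrank k (V (p * t)) : ℝ) / (t : ℝ) ^ d)
      atTop (𝓝 ((D : ℝ) / d.factorial)) := by
  obtain ⟨d, D, b, c, hD, h⟩ := veronese_growth V hmul hfg hp0 hp
  exact ⟨d, D, hD, tendsto_of_growth (N := fun t => Module.finrank k (V (p * t))) h⟩

/-- **The degree of the `p`-th Veronese is divisible by `p ^ d`** if some `q` coprime to `p` also
satisfies the finiteness condition. -/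
theorem degree_dvd [Infinite k] (V : ℕ → Submodule k A)
    (hmul : ∀ s t, V s * V t ≤ V (s + t)) (hfg : ∀ t, (V t).FG) {p q : ℕ} (hp : 0 < p)
    (hq : 0 < q) (hpq : Nat.Coprime p q) (hq0 : V q ≠ ⊥)
    (hqfin : ∃ c, ∀ t ≥ c, V (q * (t + 1)) ≤ V q * V (q * t)) {d D : ℕ} (hD : 1 ≤ D)
    (h : Tendsto (fun t : ℕ => (Module.finrank k (V (p * t)) : ℝ) / (t : ℝ) ^ d) atTop
      (𝓝 ((D : ℝ) / d.factorial))) :
    ∃ ℓ, 1 ≤ ℓ ∧ D = ℓ * p ^ d := by
  obtain ⟨d', D', hD', h'⟩ := veronese_tendsto V hmul hfg hq0 hqfin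
  obtain ⟨-, ℓ, h1, h2, -⟩ := coprime_growth (N := fun t => Module.finrank k (V t)) hp hq hpq hD hD'
    h h'
  exact ⟨ℓ, h1, h2⟩

end Vale.Agent.P271.Hilb
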