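import Mathlib

/-!
# Hilbert function of a polynomial ring

`finrank_homogeneousSubmodule`: the forms of degree `t` in `d + 1` variables over a field `k`
form a vector space of dimension `C(t + d, d)`.
-/

namespace Vale.Agent.P271.Hilb

open MvPolynomial

variable {k : Type*} [Field k]

/-- exponents of degree `t` -/
lemma card_exponents (d t : ℕ) :
    Nat.card {m : Fin (d + 1) →₀ ℕ | m.degree = t} = (t + d).choose d := by
  have h : {m : Fin (d + 1) →₀ ℕ | m.degree = t}
      = ((Finset.univ.finsuppAntidiag t : Finset (Fin (d + 1) →₀ ℕ)) : Set _) := by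
    ext m
    simp [Finset.mem_finsuppAntidiag, Finsupp.degree_eq_sum]
  rw [h, Nat.card_coe_set_eq, Set.ncard_coe_finset,
    Finset.card_finsuppAntidiag_nat_eq_choose, Finset.card_univ, Fintype.card_fin]
  have h1 : d + 1 + t - 1 = t + d := by omega
  rw [h1, Nat.choose_symm_add]

/-- `dim k[y_0, …, y_d]_t = C(t + d, d)` -/
theorem finrank_homogeneousSubmodule (d t : ℕ) :
    Module.finrank k (homogeneousSubmodule (Fin (d + 1)) k t) = (t + d).choose d := by
  rw [homogeneousSubmodule_eq_finsupp_supported]
  have e := (AddMonoidAlgebra.supportedEquivFinsupp (S := k) (R := k)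
    {m : Fin (d + 1) →₀ ℕ | m.degree = t}).finrank_eq
  refine e.trans ?_
  rw [← card_exponents d t]
  have hfin : Finite {m : Fin (d + 1) →₀ ℕ | m.degree = t} := by
    have h : {m : Fin (d + 1) →₀ ℕ | m.degree = t}
        = ((Finset.univ.finsuppAntidiag t : Finset (Fin (d + 1) →₀ ℕ)) : Set _) := by
      ext m
      simp [Finset.mem_finsuppAntidiag, Finsupp.degree_eq_sum]
    rw [h]
    exact Finset.finite_toSet _
  have := Fintype.ofFinite {m : Fin (d + 1) →₀ ℕ | m.degree = t}
  rw [Module.finrank_finsupp_self, Nat.card_eq_fintype_card]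

instance finite_homogeneousSubmodule (d t : ℕ) :
    Module.Finite k (homogeneousSubmodule (Fin (d + 1)) k t) := by
  apply Module.finite_of_finrank_pos
  rw [finrank_homogeneousSubmodule]
  exact Nat.choose_pos (by omega)

end Vale.Agent.P271.Hilb
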