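import Vale.Agent.P271.Hilb.IRed
import Vale.Agent.P271.Hilb.UPoly

/-!
# Dimension of the powers of the span of `1` and algebraically independent functions
-/

namespace Vale.Agent.P271.Hilb

open MvPolynomial
open scoped Pointwise

variable {k A : Type*} [Field k] [CommRing A] [Algebra k A]

/-- exponents of degree at most `t` -/
def expLe (d t : ℕ) : Set (Fin d →₀ ℕ) := {m | m.degree ≤ t}

lemma card_expLe (d t : ℕ) : Nat.card (expLe d t) = (t + d).choose d := by
  rw [← card_exponents d t]
  refine Nat.card_congr ?_
  refine
    { toFun := fun m => ⟨Finsupp.cons (t - m.1.degree) m.1, ?_⟩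
      invFun := fun m => ⟨Finsupp.tail m.1, ?_⟩
      left_inv := ?_
      right_inv := ?_ }
  · have h : m.1.degree ≤ t := m.2
    rw [Set.mem_ofPred_eq, Finsupp.degree_eq_sum, Fin.sum_univ_succ]
    simp only [Finsupp.cons_zero, Finsupp.cons_succ]
    rw [← Finsupp.degree_eq_sum]
    omega
  · have h : m.1.degree = t := m.2
    rw [Finsupp.degree_eq_sum, Fin.sum_univ_succ] at h
    change (Finsupp.tail m.1).degree ≤ t
    rw [Finsupp.degree_eq_sum]
    simp only [Finsupp.tail_apply]
    omega
  · intro m
    apply Subtype.ext
    simp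
  · intro m
    apply Subtype.ext
    have h : m.1.degree = t := m.2
    rw [Finsupp.degree_eq_sum, Fin.sum_univ_succ] at h
    have h1 : t - (Finsupp.tail m.1).degree = m.1 0 := by
      rw [Finsupp.degree_eq_sum]
      simp only [Finsupp.tail_apply]
      omega
    simp only [h1]
    exact Finsupp.cons_tail m.1

lemma expLe_finite (d t : ℕ) : (expLe d t).Finite := by
  have h : Nat.card (expLe d t) ≠ 0 := by
    rw [card_expLe]
    exact (Nat.choose_pos (by omega)).ne'
  exact (Nat.finite_of_card_ne_zero h)

lemma expLe_succ (d t : ℕ) : expLe d (t + 1) = expLe d 1 + expLe d t := by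
  apply Set.Subset.antisymm
  · intro m hm
    have hm' : m.degree ≤ t + 1 := hm
    by_cases h : m = 0
    · subst h
      exact ⟨0, by simp [expLe], 0, by simp [expLe], by simp⟩
    · obtain ⟨i, hi⟩ : ∃ i, m i ≠ 0 := by
        by_contra hcon
        push Not at hcon
        exact h (Finsupp.ext hcon)
      refine ⟨Finsupp.single i 1, by simp [expLe], m - Finsupp.single i 1, ?_, ?_⟩
      · have h2 : Finsupp.single i 1 + (m - Finsupp.single i 1) = m :=
          add_tsub_cancel_of_le (Finsupp.single_le_iff.2 (Nat.one_le_iff_ne_zero.2 hi))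
        have h3 : (Finsupp.single i 1 + (m - Finsupp.single i 1)).degree ≤ t + 1 := by
          rw [h2]; exact hm'
        rw [map_add] at h3
        simp only [Finsupp.degree_single] at h3
        change (m - Finsupp.single i 1).degree ≤ t
        omega
      · exact add_tsub_cancel_of_le (Finsupp.single_le_iff.2 (Nat.one_le_iff_ne_zero.2 hi))
  · rintro _ ⟨a, ha, b, hb, rfl⟩
    have ha' : a.degree ≤ 1 := ha
    have hb' : b.degree ≤ t := hb
    change (a + b).degree ≤ t + 1
    rw [map_add]
    omega

lemma affSpan_eq_map {d : ℕ} (y : Fin d → A) :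
    (affSpan y : Submodule k A)
      = (restrictSupport k (expLe d 1)).map (aeval y : MvPolynomial (Fin d) k →ₐ[k] A).toLinearMap := by
  rw [restrictSupport_eq_span, Submodule.map_span, affSpan]
  congr 1
  ext x
  constructor
  · rintro (rfl | ⟨i, rfl⟩)
    · exact ⟨monomial 0 1, ⟨0, by simp [expLe], rfl⟩, by simp⟩
    · exact ⟨monomial (Finsupp.single i 1) 1, ⟨_, by simp [expLe], rfl⟩, by
        simp [aeval_monomial]⟩
  · rintro ⟨_, ⟨m, hm, rfl⟩, rfl⟩
    have hm' : m.degree ≤ 1 := hm
    by_cases h : m = 0
    · subst h
      left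
      simp
    · obtain ⟨i, hi⟩ : ∃ i, m i ≠ 0 := by
        by_contra hcon
        push Not at hcon
        exact h (Finsupp.ext hcon)
      right
      refine ⟨i, ?_⟩
      have h2 : Finsupp.single i 1 + (m - Finsupp.single i 1) = m :=
          add_tsub_cancel_of_le (Finsupp.single_le_iff.2 (Nat.one_le_iff_ne_zero.2 hi))
      have h3 : (Finsupp.single i 1 + (m - Finsupp.single i 1)).degree ≤ 1 := by
          rw [h2]; exact hm'
      rw [map_add] at h3
      simp only [Finsupp.degree_single] at h3
      have h4 : (m - Finsupp.single i 1) = 0 := by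
        have : (m - Finsupp.single i 1).degree = 0 := by omega
        exact (Finsupp.degree_eq_zero_iff _).1 this
      rw [h4, add_zero] at h2
      rw [← h2]
      simp [aeval_monomial]

lemma affSpan_pow {d : ℕ} (y : Fin d → A) (t : ℕ) :
    (affSpan y : Submodule k A) ^ t
      = (restrictSupport k (expLe d t)).map (aeval y : MvPolynomial (Fin d) k →ₐ[k] A).toLinearMap := by
  induction t with
  | zero =>
    have h : expLe d 0 = 0 := by
      ext m
      simp [expLe, Finsupp.degree_eq_zero_iff]
    rw [h, restrictSupport_zero, pow_zero, Submodule.map_one]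
  | succ t ih =>
    rw [pow_succ', ih, expLe_succ, restrictSupport_add, affSpan_eq_map, ← Submodule.map_mul]

lemma finrank_restrictSupport (d t : ℕ) :
    Module.Finite k (restrictSupport k (expLe d t)) ∧
    Module.finrank k (restrictSupport k (expLe d t)) = (t + d).choose d := by
  have hfin := expLe_finite d t
  have : Fintype (expLe d t) := hfin.fintype
  constructor
  · exact Module.Finite.of_basis (basisRestrictSupport k (expLe d t))
  · rw [Module.finrank_eq_card_basis (basisRestrictSupport k (expLe d t)), ← card_expLe,
      Nat.card_eq_fintype_card]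

theorem finrank_affSpan_pow {d : ℕ} {y : Fin d → A} (hy : AlgebraicIndependent k y) (t : ℕ) :
    Module.finrank k ((affSpan y : Submodule k A) ^ t : Submodule k A) = (t + d).choose d := by
  rw [affSpan_pow, ← (finrank_restrictSupport (k := k) d t).2]
  exact (LinearEquiv.finrank_eq (Submodule.equivMapOfInjective (aeval y : MvPolynomial (Fin d) k →ₐ[k] A).toLinearMap hy _)).symm

/-- every polynomial in the `y_i` lies in some power of their affine span -/
lemma exists_mem_affSpan_pow {d : ℕ} (y : Fin d → A) (p : MvPolynomial (Fin d) k) :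
    ∃ b, aeval y p ∈ (affSpan y : Submodule k A) ^ b := by
  refine ⟨p.totalDegree, ?_⟩
  rw [affSpan_pow]
  refine ⟨p, ?_, rfl⟩
  rw [SetLike.mem_coe, mem_restrictSupport_iff]
  intro m hm
  exact le_totalDegree hm

end Vale.Agent.P271.Hilb
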