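import Vale.Agent.P271.Hilb.IPoly

/-!
# Growth of `dim (Y ^ t * W)`

`y_1, …, y_d` algebraically independent in the domain `A`, `Y` the span of `1, y_1, …, y_d`, `W` a
non-zero finite dimensional space.  Then there are `D ≥ 1` and `b` with
`D * C(t + d, d) ≤ dim (Y ^ t * W) ≤ D * C(t + b + d, d)` for all `t`.
-/

set_option linter.unusedSectionVars false

namespace Vale.Agent.P271.Hilb

open MvPolynomial
open scoped Pointwise

variable {k A : Type*} [Field k] [CommRing A] [IsDomain A] [Algebra k A]

/-- `∑ p_i e_i`, all `p_i` of degree `≤ t` -/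
noncomputable def combo {ι : Type*} [Fintype ι] {d : ℕ} (y : Fin d → A) (e : ι → A) (t : ℕ) :
    (ι → restrictSupport k (expLe d t)) →ₗ[k] A :=
  ∑ i, (LinearMap.mulRight k (e i)).comp
    ((aeval y : MvPolynomial (Fin d) k →ₐ[k] A).toLinearMap.comp
      ((restrictSupport k (expLe d t)).subtype.comp (LinearMap.proj i)))

lemma combo_apply {ι : Type*} [Fintype ι] {d : ℕ} (y : Fin d → A) (e : ι → A) (t : ℕ)
    (p : ι → restrictSupport k (expLe d t)) :
    combo y e t p = ∑ i, aeval y (p i : MvPolynomial (Fin d) k) * e i := by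
  simp [combo]

lemma mul_mem_restrictSupport {d s t : ℕ} {p q : MvPolynomial (Fin d) k}
    (hp : p ∈ restrictSupport k (expLe d s)) (hq : q ∈ restrictSupport k (expLe d t)) :
    p * q ∈ restrictSupport k (expLe d (s + t)) := by
  have h1 : p * q ∈ restrictSupport k (expLe d s + expLe d t) := by
    rw [restrictSupport_add]
    exact Submodule.mul_mem_mul hp hq
  refine restrictSupport_mono k ?_ h1
  rintro _ ⟨a, ha, b, hb, rfl⟩
  have ha' : a.degree ≤ s := ha
  have hb' : b.degree ≤ t := hb
  change (a + b).degree ≤ s + t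
  rw [map_add]
  omega

theorem rank_growth {d : ℕ} {y : Fin d → A} (hy : AlgebraicIndependent k y)
    {W : Submodule k A} (hW : W.FG) (hW0 : W ≠ ⊥) :
    ∃ D b : ℕ, 1 ≤ D ∧ ∀ t, Module.Finite k ((affSpan y : Submodule k A) ^ t * W : Submodule k A) ∧
      D * (t + d).choose d ≤ Module.finrank k ((affSpan y : Submodule k A) ^ t * W : Submodule k A) ∧
      Module.finrank k ((affSpan y : Submodule k A) ^ t * W : Submodule k A)
        ≤ D * (t + b + d).choose d := by
  classical
  let P := MvPolynomial (Fin d) k
  let algP : Algebra P A := (aeval y : P →ₐ[k] A).toRingHom.toAlgebra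
  have hsmul : ∀ (p : P) (x : A), p • x = aeval y p * x := fun p x => rfl
  have hinj : ∀ p : P, aeval y p = 0 → p = 0 := fun p hp =>
    hy (by rw [hp, map_zero])
  -- generators of `W`
  obtain ⟨N, w, hw⟩ := Submodule.fg_iff_exists_fin_generating_family.1 hW
  obtain ⟨s, hs, hmax⟩ := exists_maximal_linearIndepOn P w
  have hsfin : Fintype s := Fintype.ofFinite s
  set e : s → A := fun i => w i with he
  have heW : ∀ i, e i ∈ W := fun i => hw ▸ Submodule.subset_span ⟨i.1, rfl⟩
  have hspan : w '' s = Set.range e := by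
    ext x; simp [he]
  -- common denominator
  have hex : ∀ j : Fin N, ∃ a : P, a ≠ 0 ∧ a • w j ∈ Submodule.span P (Set.range e) := by
    intro j
    by_cases hj : j ∈ s
    · exact ⟨1, one_ne_zero, by rw [one_smul]; exact Submodule.subset_span ⟨⟨j, hj⟩, rfl⟩⟩
    · rw [← hspan]
      exact hmax j hj
  choose a ha0 ha using hex
  set h : P := ∏ j, a j with hh
  have hh0 : h ≠ 0 := Finset.prod_ne_zero_iff.2 (fun j _ => ha0 j)
  have hhw : ∀ j, h • w j ∈ Submodule.span P (Set.range e) := by
    intro j
    rw [hh, ← Finset.mul_prod_erase _ _ (Finset.mem_univ j), mul_comm, mul_smul]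
    exact Submodule.smul_mem _ _ (ha j)
  have hcoef : ∀ j, ∃ c : s → P, h • w j = ∑ i, c i • e i := by
    intro j
    obtain ⟨c, hc⟩ := (Submodule.mem_span_range_iff_exists_fun P).1 (hhw j)
    exact ⟨c, hc.symm⟩
  choose c hc using hcoef
  set b : ℕ := Finset.univ.sup (fun ji : Fin N × s => (c ji.1 ji.2).totalDegree) with hb
  have hcb : ∀ j i, c j i ∈ restrictSupport k (expLe d b) := by
    intro j i
    rw [mem_restrictSupport_iff]
    intro m hm
    have h1 : m.degree ≤ (c j i).totalDegree := le_totalDegree hm
    exact h1.trans (Finset.le_sup (f := fun ji : Fin N × s => (c ji.1 ji.2).totalDegree)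
      (Finset.mem_univ (j, i)))
  have hne : Nonempty s := by
    by_contra hempty
    rw [not_nonempty_iff] at hempty
    apply hW0
    rw [← hw, Submodule.span_eq_bot]
    rintro _ ⟨j, rfl⟩
    have h1 := hc j
    rw [Fintype.sum_empty, hsmul] at h1
    rcases mul_eq_zero.1 h1 with h2 | h2
    · exact absurd (hinj _ h2) hh0
    · exact h2
  refine ⟨Fintype.card s, b, Fintype.card_pos, fun t => ?_⟩
  have hFin : ∀ t, Module.Finite k (restrictSupport k (expLe d t)) :=
    fun t => (finrank_restrictSupport (k := k) d t).1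
  have hdim : ∀ t, Module.finrank k (s → restrictSupport k (expLe d t))
      = Fintype.card s * (t + d).choose d := by
    intro t
    rw [Module.finrank_pi_fintype]
    simp [(finrank_restrictSupport (k := k) d t).2]
  -- `h W` in the range
  have hWb : ∀ n ∈ W, ∃ q : s → restrictSupport k (expLe d b),
      aeval y h * n = ∑ i, aeval y (q i : P) * e i := by
    intro n hn
    rw [← hw] at hn
    induction hn using Submodule.span_induction with
    | mem x hx =>
      obtain ⟨j, rfl⟩ := hx
      exact ⟨fun i => ⟨c j i, hcb j i⟩, hc j⟩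
    | zero => exact ⟨0, by simp⟩
    | add x x' _ _ hx hx' =>
      obtain ⟨q, hq⟩ := hx
      obtain ⟨q', hq'⟩ := hx'
      refine ⟨q + q', ?_⟩
      rw [mul_add, hq, hq', ← Finset.sum_add_distrib]
      refine Finset.sum_congr rfl (fun i _ => ?_)
      rw [Pi.add_apply, Submodule.coe_add, map_add, add_mul]
    | smul r x _ hx =>
      obtain ⟨q, hq⟩ := hx
      refine ⟨r • q, ?_⟩
      rw [mul_smul_comm, hq, Finset.smul_sum]
      refine Finset.sum_congr rfl (fun i _ => ?_)
      rw [Pi.smul_apply, Submodule.coe_smul, map_smul, smul_mul_assoc]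
  have hup : ((affSpan y : Submodule k A) ^ t * W).map (LinearMap.mulLeft k (aeval y h))
      ≤ LinearMap.range (combo (k := k) y e (t + b)) := by
    rw [Submodule.map_le_iff_le_comap, Submodule.mul_le]
    intro m hm n hn
    rw [affSpan_pow] at hm
    obtain ⟨p, hp, rfl⟩ := hm
    obtain ⟨q, hq⟩ := hWb n hn
    refine ⟨fun i => ⟨p * q i, mul_mem_restrictSupport hp (q i).2⟩, ?_⟩
    rw [combo_apply, LinearMap.mulLeft_apply, ← mul_assoc, mul_comm (aeval y h), mul_assoc, hq,
      Finset.mul_sum]
    refine Finset.sum_congr rfl (fun i _ => ?_)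
    simp only [map_mul, AlgHom.toLinearMap_apply]
    ring
  have hlinj : Function.Injective (LinearMap.mulLeft k (aeval y h)) := by
    rw [injective_iff_map_eq_zero]
    intro x hx
    rw [LinearMap.mulLeft_apply] at hx
    rcases mul_eq_zero.1 hx with h2 | h2
    · exact absurd (hinj _ h2) hh0
    · exact h2
  have hYfg : ((affSpan y : Submodule k A) ^ t).FG := by
    rw [affSpan_pow]
    exact (Module.Finite.iff_fg.1 (hFin t)).map _
  have hYWfin : Module.Finite k ((affSpan y : Submodule k A) ^ t * W : Submodule k A) :=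
    Module.Finite.iff_fg.2 (hYfg.mul hW)
  refine ⟨hYWfin, ?_, ?_⟩
  · -- lower bound
    have hmem : ∀ p, combo (k := k) y e t p ∈ (affSpan y : Submodule k A) ^ t * W := by
      intro p
      rw [combo_apply]
      refine Submodule.sum_mem _ (fun i _ => Submodule.mul_mem_mul ?_ (heW i))
      rw [affSpan_pow]
      exact ⟨_, (p i).2, rfl⟩
    have hΦ : Function.Injective ((combo (k := k) y e t).codRestrict
        ((affSpan y : Submodule k A) ^ t * W) hmem) := by
      rw [injective_iff_map_eq_zero]
      intro p hp
      have h1 : combo (k := k) y e t p = 0 := congrArg Subtype.val hp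
      rw [combo_apply] at h1
      have h2 : ∑ i, ((p i : restrictSupport k (expLe d t)) : P) • e i = 0 := h1
      have hs' : LinearIndependent P e := hs
      have h3 := Fintype.linearIndependent_iff.1 hs' _ h2
      funext i
      exact Subtype.ext (h3 i)
    have h4 := LinearMap.finrank_le_finrank_of_injective hΦ
    rwa [hdim] at h4
  · -- upper bound
    have h1 : Module.finrank k ((affSpan y : Submodule k A) ^ t * W : Submodule k A)
        = Module.finrank k (((affSpan y : Submodule k A) ^ t * W).map
          (LinearMap.mulLeft k (aeval y h))) :=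
      (Submodule.equivMapOfInjective _ hlinj _).finrank_eq
    rw [h1]
    refine (Submodule.finrank_mono hup).trans ?_
    exact (LinearMap.finrank_range_le _).trans (le_of_eq (hdim _))

end Vale.Agent.P271.Hilb
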