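import Mathlib

/-!
# Reductions of finite dimensional spaces of functions

`A` a commutative algebra over an infinite field `k`, `E` a finite dimensional subspace with
`1 ∈ E`.  `exists_reduction`: there are algebraically independent `y_1, …, y_d ∈ E` and `c` with
`E ^ (c + 1) ≤ Y * E ^ c`, `Y` the span of `1, y_1, …, y_d`.
-/

namespace Vale.Agent.P271.Hilb

open MvPolynomial

section Red

variable {k A : Type*} [Field k] [CommRing A] [Algebra k A]

/-- span of `1` and a family -/
def affSpan {r : ℕ} (z : Fin r → A) : Submodule k A :=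
  Submodule.span k (insert 1 (Set.range z))

lemma one_mem_affSpan {r : ℕ} (z : Fin r → A) : (1 : A) ∈ (affSpan z : Submodule k A) :=
  Submodule.subset_span (Set.mem_insert _ _)

lemma mem_affSpan {r : ℕ} (z : Fin r → A) (i : Fin r) : z i ∈ (affSpan z : Submodule k A) :=
  Submodule.subset_span (Set.mem_insert_of_mem _ ⟨i, rfl⟩)

lemma affSpan_le {r : ℕ} {z : Fin r → A} {E : Submodule k A} (h1 : (1 : A) ∈ E)
    (hz : ∀ i, z i ∈ E) : affSpan z ≤ E := by
  apply Submodule.span_le.2
  rintro x (rfl | ⟨i, rfl⟩)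
  · exact h1
  · exact hz i

lemma affSpan_fg {r : ℕ} (z : Fin r → A) : (affSpan z : Submodule k A).FG :=
  Submodule.fg_span ((Set.finite_range z).insert 1)

lemma mul_le_mulL (G : Submodule k A) {E F : Submodule k A} (h : E ≤ F) : G * E ≤ G * F :=
  Submodule.mul_le.2 fun _ hm _ hn => Submodule.mul_mem_mul hm (h hn)

lemma mul_le_mulR (G : Submodule k A) {E F : Submodule k A} (h : E ≤ F) : E * G ≤ F * G :=
  Submodule.mul_le.2 fun _ hm _ hn => Submodule.mul_mem_mul (h hm) hn

lemma pow_le_powL {E F : Submodule k A} (h : E ≤ F) (t : ℕ) : E ^ t ≤ F ^ t := by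
  induction t with
  | zero => simp
  | succ t ih =>
    rw [pow_succ, pow_succ]
    exact (mul_le_mulL _ h).trans (mul_le_mulR _ ih)

lemma le_mul_self_of_one {E F : Submodule k A} (h1 : (1 : A) ∈ E) : F ≤ E * F := by
  intro x hx
  have := Submodule.mul_mem_mul h1 hx
  rwa [one_mul] at this

lemma pow_mono_of_one {E : Submodule k A} (h1 : (1 : A) ∈ E) {s t : ℕ} (h : s ≤ t) :
    E ^ s ≤ E ^ t := by
  induction h with
  | refl => exact le_rfl
  | step _ ih =>
    refine ih.trans ?_
    rw [pow_succ']
    exact le_mul_self_of_one h1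

/-- transitivity: `E ^ (c + t) ≤ E' ^ t * E ^ c` -/
lemma red_pow {E E' : Submodule k A} {c : ℕ} (h : E ^ (c + 1) ≤ E' * E ^ c) (t : ℕ) :
    E ^ (c + t) ≤ E' ^ t * E ^ c := by
  induction t with
  | zero => simp
  | succ t ih =>
    calc E ^ (c + (t + 1)) = E * E ^ (c + t) := by rw [← add_assoc, pow_succ']
      _ ≤ E * (E' ^ t * E ^ c) := mul_le_mulL _ ih
      _ = E' ^ t * E ^ (c + 1) := by rw [pow_succ]; ring
      _ ≤ E' ^ t * (E' * E ^ c) := mul_le_mulL _ h
      _ = E' ^ (t + 1) * E ^ c := by rw [pow_succ]; ring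

lemma red_trans {E E' Y : Submodule k A} {c c' : ℕ} (hE : E' ≤ E) (h : E ^ (c + 1) ≤ E' * E ^ c)
    (h' : E' ^ (c' + 1) ≤ Y * E' ^ c') : E ^ ((c + c') + 1) ≤ Y * E ^ (c + c') := by
  calc E ^ ((c + c') + 1) = E ^ (c + (c' + 1)) := by rw [add_assoc]
    _ ≤ E' ^ (c' + 1) * E ^ c := red_pow h _
    _ ≤ (Y * E' ^ c') * E ^ c := mul_le_mulR _ h'
    _ ≤ (Y * E ^ c') * E ^ c :=
        mul_le_mulR _ (mul_le_mulL _ (pow_le_powL hE _))
    _ = Y * E ^ (c + c') := by rw [pow_add]; ring

/-- `J s = E' * E ^ (s - 1)` with `J 0 = ⊥` -/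
def Jsp (E E' : Submodule k A) : ℕ → Submodule k A
  | 0 => ⊥
  | s + 1 => E' * E ^ s

lemma Jsp_mul (E E' : Submodule k A) (s : ℕ) {x j : A} (hx : x ∈ E) (hj : j ∈ Jsp E E' s) :
    x * j ∈ Jsp E E' (s + 1) := by
  cases s with
  | zero =>
    have h1 : j = 0 := by simpa [Jsp] using hj
    rw [h1, mul_zero]
    exact Submodule.zero_mem _
  | succ s =>
    have h1 : x * j ∈ E * (E' * E ^ s) := Submodule.mul_mem_mul hx hj
    have h2 : E * (E' * E ^ s) = E' * E ^ (s + 1) := by rw [pow_succ]; ring
    rw [h2] at h1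
    exact h1

lemma prod_split {M : Type*} [CommMonoid M] {r : ℕ} (f : Fin r → M) (m : Fin r → ℕ) {i : Fin r}
    (hi : m i ≠ 0) :
    ∏ j, f j ^ m j = f i * ∏ j, f j ^ (Function.update m i (m i - 1)) j := by
  classical
  rw [← Finset.mul_prod_erase _ _ (Finset.mem_univ i),
    ← Finset.mul_prod_erase Finset.univ (fun j => f j ^ (Function.update m i (m i - 1)) j)
      (Finset.mem_univ i), ← mul_assoc]
  congr 1
  · rw [Function.update_self, ← pow_succ', Nat.sub_add_cancel (Nat.one_le_iff_ne_zero.2 hi)]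
  · refine Finset.prod_congr rfl (fun j hj => ?_)
    rw [Function.update_of_ne (Finset.ne_of_mem_erase hj)]

/-- products of the `z_i` are congruent to multiples of `u ^ s` -/
lemma monomial_mod {r : ℕ} {z : Fin r → A} {E E' : Submodule k A} (hzE : ∀ i, z i ∈ E)
    {u : A} (hu : u ∈ E) (a : Fin r → k) (hz' : ∀ i, z i - a i • u ∈ E') (n : ℕ) :
    ∀ m : Fin r → ℕ, ∑ i, m i = n →
    (∏ i, z i ^ m i) ∈ E ^ n ∧ (∏ i, z i ^ m i) - (∏ i, a i ^ m i) • u ^ n ∈ Jsp E E' n := by
  classical
  induction n with
  | zero =>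
    intro m hm
    have h0 : ∀ i, m i = 0 := by simpa using hm
    simp only [h0, pow_zero, Finset.prod_const_one, one_smul, sub_self]
    exact ⟨by rw [Submodule.one_eq_span]; exact Submodule.mem_span_singleton_self _,
      Submodule.zero_mem _⟩
  | succ n ih =>
    intro m hm
    obtain ⟨i, hi⟩ : ∃ i, m i ≠ 0 := by
      by_contra hcon
      push Not at hcon
      simp [hcon] at hm
    have hm' : ∑ j, (Function.update m i (m i - 1)) j = n := by
      rw [← Finset.add_sum_erase _ _ (Finset.mem_univ i)] at hm ⊢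
      rw [Function.update_self, Finset.sum_congr rfl
        (fun j hj => Function.update_of_ne (Finset.ne_of_mem_erase hj) _ _)]
      omega
    obtain ⟨h1, h2⟩ := ih _ hm'
    rw [prod_split z m hi, prod_split a m hi]
    constructor
    · rw [pow_succ']
      exact Submodule.mul_mem_mul (hzE i) h1
    · set Z := ∏ j, z j ^ (Function.update m i (m i - 1)) j with hZ
      set α := ∏ j, a j ^ (Function.update m i (m i - 1)) j with hα
      have e3 : z i * Z - (a i * α) • u ^ (n + 1)
          = (z i - a i • u) * Z + a i • (u * (Z - α • u ^ n)) := by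
        simp only [Algebra.smul_def, map_mul, pow_succ]
        ring
      rw [e3]
      refine Submodule.add_mem _ (Submodule.mul_mem_mul (hz' i) h1) (Submodule.smul_mem _ _ ?_)
      exact Jsp_mul E E' n hu h2

lemma pow_le_Jsp {E E' : Submodule k A} {u : A} (hE : ∀ x ∈ E, ∃ c : k, x - c • u ∈ E')
    (hu : u ∈ E) (n : ℕ) :
    E ^ n ≤ Jsp E E' n ⊔ Submodule.span k {u ^ n} := by
  induction n with
  | zero => simp [Jsp, Submodule.one_eq_span]
  | succ n ih =>
    rw [pow_succ']
    refine Submodule.mul_le.2 (fun x hx y hy => ?_)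
    obtain ⟨j, hj, w, hw, rfl⟩ := Submodule.mem_sup.1 (ih hy)
    obtain ⟨b, rfl⟩ := Submodule.mem_span_singleton.1 hw
    obtain ⟨c, hc⟩ := hE x hx
    have e : x * (j + b • u ^ n)
        = (x * j + b • ((x - c • u) * u ^ n)) + (c * b) • u ^ (n + 1) := by
      simp only [Algebra.smul_def, map_mul, pow_succ]
      ring
    rw [e]
    refine Submodule.add_mem_sup (Submodule.add_mem _ (Jsp_mul E E' n hx hj)
      (Submodule.smul_mem _ _ ?_)) (Submodule.smul_mem _ _ (Submodule.mem_span_singleton_self _))
    exact Submodule.mul_mem_mul hc (Submodule.pow_mem_pow _ hu _)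

/-- One reduction step. -/
lemma reduction_step [Infinite k] [Nontrivial A] {r : ℕ} (z : Fin (r + 1) → A)
    (hdep : ¬ AlgebraicIndependent k z) :
    ∃ (z' : Fin r → A) (c : ℕ), (affSpan z' : Submodule k A) ≤ affSpan z ∧
      (affSpan z : Submodule k A) ^ (c + 1) ≤ affSpan z' * affSpan z ^ c := by
  classical
  obtain ⟨P, hP, hP0⟩ : ∃ P : MvPolynomial (Fin (r + 1)) k, aeval z P = 0 ∧ P ≠ 0 := by
    rw [AlgebraicIndependent, injective_iff_map_eq_zero] at hdep
    push Not at hdep
    exact hdep
  set m := P.totalDegree with hm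
  set Q := homogeneousComponent m P with hQ
  have hQhom : Q.IsHomogeneous m := homogeneousComponent_isHomogeneous m P
  have hm0 : m ≠ 0 := by
    intro h0
    have h1 : P = C (coeff 0 P) := (totalDegree_eq_zero_iff_eq_C).1 h0
    rw [h1, algHom_C, map_eq_zero] at hP
    apply hP0
    rw [h1, hP, map_zero]
  have hQ0 : Q ≠ 0 := by
    obtain ⟨d, hd, hdm⟩ : ∃ d ∈ P.support, d.degree = m := by
      obtain ⟨d, hd, h⟩ := Finset.exists_mem_eq_sup P.support
        (Finset.nonempty_iff_ne_empty.2 (by simpa using hP0)) (fun s => s.degree)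
      exact ⟨d, hd, h.symm⟩
    intro h0
    have h1 : coeff d Q = coeff d P := by
      rw [hQ, coeff_homogeneousComponent, if_pos hdm]
    rw [h0, coeff_zero] at h1
    exact (mem_support_iff.1 hd) h1.symm
  obtain ⟨a, ha⟩ : ∃ a : Fin (r + 1) → k, MvPolynomial.eval a Q ≠ 0 := by
    by_contra hcon
    push Not at hcon
    exact hQ0 (MvPolynomial.funext (fun c => by rw [hcon c, map_zero]))
  obtain ⟨i, hi⟩ : ∃ i, a i ≠ 0 := by
    by_contra hcon
    push Not at hcon
    apply ha
    rw [show a = 0 from funext hcon, MvPolynomial.eval_zero]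
    exact hQhom.coeff_eq_zero (by simpa using hm0.symm)
  set E : Submodule k A := affSpan z with hE
  set u : A := (a i)⁻¹ • z i with hu
  have huE : u ∈ E := Submodule.smul_mem _ _ (mem_affSpan z i)
  set w : Fin (r + 1) → A := fun j => z j - a j • u with hw
  have hwi : w i = 0 := by
    simp only [hw, hu]
    rw [smul_smul, mul_inv_cancel₀ hi, one_smul, sub_self]
  set z' : Fin r → A := fun j => w (i.succAbove j) with hz'
  set E' : Submodule k A := affSpan z' with hE'
  have hwE' : ∀ j, w j ∈ E' := by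
    intro j
    by_cases hj : j = i
    · rw [hj, hwi]; exact zero_mem _
    · obtain ⟨l, hl⟩ := Fin.exists_succAbove_eq hj
      rw [← hl]
      exact mem_affSpan z' l
  have hEE : ∀ x ∈ E, ∃ c : k, x - c • u ∈ E' := by
    intro x hx
    induction hx using Submodule.span_induction with
    | mem x hx =>
      rcases hx with rfl | ⟨j, rfl⟩
      · exact ⟨0, by simpa using one_mem_affSpan z'⟩
      · exact ⟨a j, hwE' j⟩
    | zero => exact ⟨0, by simp⟩
    | add x y _ _ hx hy =>
      obtain ⟨c, hc⟩ := hx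
      obtain ⟨c', hc'⟩ := hy
      refine ⟨c + c', ?_⟩
      have := Submodule.add_mem _ hc hc'
      convert this using 1
      rw [add_smul]; abel
    | smul b x _ hx =>
      obtain ⟨c, hc⟩ := hx
      refine ⟨b * c, ?_⟩
      have := Submodule.smul_mem E' b hc
      rwa [smul_sub, smul_smul] at this
  refine ⟨z', m - 1, ?_, ?_⟩
  · refine affSpan_le (one_mem_affSpan z) (fun j => ?_)
    exact Submodule.sub_mem _ (mem_affSpan z _) (Submodule.smul_mem _ _ huE)
  · obtain ⟨c, hc⟩ : ∃ c, m = c + 1 := ⟨m - 1, by omega⟩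
    have hmod := monomial_mod (E := E) (E' := E') (mem_affSpan z) huE a hwE'
    have h1E' : (1 : A) ∈ E' := one_mem_affSpan z'
    have hJ : Jsp E E' m = E' * E ^ c := by rw [hc]; rfl
    -- the relation
    have hsum : ∑ d ∈ P.support, (coeff d P) • ∏ j, z j ^ d j = 0 := by
      rw [← hP]
      conv_rhs => rw [P.as_sum, map_sum]
      refine Finset.sum_congr rfl (fun d _ => ?_)
      rw [aeval_monomial, Finsupp.prod_fintype _ _ (fun i => pow_zero _), Algebra.smul_def]
    have hevalQ : MvPolynomial.eval a Q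
        = ∑ d ∈ P.support with d.degree = m, coeff d P * ∏ j, a j ^ d j := by
      rw [MvPolynomial.eval_eq', hQ]
      have hsupp : (homogeneousComponent m P).support = P.support.filter (fun d => d.degree = m) := by
        ext d
        simp only [mem_support_iff, coeff_homogeneousComponent, Finset.mem_filter]
        by_cases h : d.degree = m <;> simp [h]
      rw [hsupp]
      refine Finset.sum_congr rfl (fun d hd => ?_)
      rw [coeff_homogeneousComponent, if_pos (Finset.mem_filter.1 hd).2]
    have hdeg : ∀ d : Fin (r + 1) →₀ ℕ, d.degree = ∑ j, d j := fun d => Finsupp.degree_eq_sum d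
    have humem : u ^ m ∈ Jsp E E' m := by
      have h1 : (MvPolynomial.eval a Q) • u ^ m ∈ Jsp E E' m := by
        have h2 : (MvPolynomial.eval a Q) • u ^ m
            = - ∑ d ∈ P.support with d.degree = m,
                coeff d P • ((∏ j, z j ^ d j) - (∏ j, a j ^ d j) • u ^ m)
              - ∑ d ∈ P.support with ¬ d.degree = m, coeff d P • ∏ j, z j ^ d j := by
          rw [← Finset.sum_filter_add_sum_filter_not _ (fun d => d.degree = m)] at hsum
          rw [hevalQ, Finset.sum_smul]
          simp only [smul_sub, Finset.sum_sub_distrib, mul_smul]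
          rw [← sub_eq_zero, ← hsum]
          abel
        rw [h2]
        refine Submodule.sub_mem _ (Submodule.neg_mem _ (Submodule.sum_mem _ (fun d hd => ?_)))
          (Submodule.sum_mem _ (fun d hd => ?_))
        · refine Submodule.smul_mem _ _ (hmod m d ?_).2
          rw [← hdeg]
          exact (Finset.mem_filter.1 hd).2
        · refine Submodule.smul_mem _ _ ?_
          have h3 : d.degree < m := by
            have h4 : d.degree ≤ m := le_totalDegree (Finset.mem_filter.1 hd).1
            exact lt_of_le_of_ne h4 (Finset.mem_filter.1 hd).2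
          have h5 := (hmod d.degree d (hdeg d).symm).1
          rw [hJ]
          exact le_mul_self_of_one h1E' (pow_mono_of_one (one_mem_affSpan z) (by omega) h5)
      have h6 := Submodule.smul_mem (Jsp E E' m) (MvPolynomial.eval a Q)⁻¹ h1
      rwa [smul_smul, inv_mul_cancel₀ ha, one_smul] at h6
    have h7 := pow_le_Jsp (E' := E') hEE huE m
    rw [show m - 1 = c by omega, ← hc, ← hJ]
    refine h7.trans (sup_le le_rfl ?_)
    rw [Submodule.span_le, Set.singleton_subset_iff]
    exact humem

/-- **Reduction to algebraically independent functions.** -/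
theorem exists_reduction [Infinite k] [Nontrivial A] (r : ℕ) (z : Fin r → A) :
    ∃ (d : ℕ) (y : Fin d → A) (c : ℕ), AlgebraicIndependent k y ∧
      (affSpan y : Submodule k A) ≤ affSpan z ∧
      (affSpan z : Submodule k A) ^ (c + 1) ≤ affSpan y * affSpan z ^ c := by
  induction r with
  | zero =>
    refine ⟨0, z, 0, ?_, le_rfl, by simp⟩
    rw [algebraicIndependent_empty_type_iff]
    exact (algebraMap k A).injective
  | succ r ih =>
    by_cases hind : AlgebraicIndependent k z
    · exact ⟨r + 1, z, 0, hind, le_rfl, by simp⟩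
    · obtain ⟨z', c, h1, h2⟩ := reduction_step z hind
      obtain ⟨d, y, c', h3, h4, h5⟩ := ih z'
      exact ⟨d, y, c + c', h3, h4.trans h1, red_trans h1 h2 h5⟩

/-- the same for a finite dimensional space containing `1` -/
theorem exists_reduction' [Infinite k] [Nontrivial A] {E : Submodule k A} (hE : E.FG)
    (h1 : (1 : A) ∈ E) :
    ∃ (d : ℕ) (y : Fin d → A) (c : ℕ), AlgebraicIndependent k y ∧
      (affSpan y : Submodule k A) ≤ E ∧ E ^ (c + 1) ≤ affSpan y * E ^ c := by
  obtain ⟨n, z, hz⟩ := Submodule.fg_iff_exists_fin_generating_family.1 hE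
  have h : (affSpan z : Submodule k A) = E := by
    apply le_antisymm
    · exact affSpan_le h1 (fun i => hz ▸ Submodule.subset_span ⟨i, rfl⟩)
    · rw [← hz]
      exact Submodule.span_mono (Set.subset_insert _ _)
  obtain ⟨d, y, c, h2, h3, h4⟩ := exists_reduction (k := k) n z
  rw [h] at h3 h4
  exact ⟨d, y, c, h2, h3, h4⟩

end Red

end Vale.Agent.P271.Hilb
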