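import Vale.Agent.P271.Hilb.IRank

/-!
# Growth of the Veronese pieces of a graded family of spaces of functions

`A` a domain over the infinite field `k`, `V : ℕ → Submodule k A` with `V s * V t ≤ V (s + t)`,
finite dimensional.  If `V p ≠ ⊥` and `V (p (t + 1)) ≤ V p * V (p t)` for large `t`, then
`D * C(t + d, d) ≤ dim V (p (c + t)) ≤ D * C(t + b + d, d)` for all `t`, with constants
`d, D ≥ 1, b, c`.
-/

set_option linter.unusedSectionVars false

namespace Vale.Agent.P271.Hilb

open MvPolynomial
open scoped Pointwise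

variable {k A : Type*} [Field k] [CommRing A] [IsDomain A] [Algebra k A]

/-- `x ↦ x / u ^ t` -/
noncomputable def divPow (u : A) (t : ℕ) : A →ₗ[k] FractionRing A :=
  (LinearMap.mulRight k ((algebraMap A (FractionRing A) u ^ t)⁻¹)).comp
    (IsScalarTower.toAlgHom k A (FractionRing A)).toLinearMap

lemma divPow_apply (u : A) (t : ℕ) (x : A) :
    divPow (k := k) u t x = algebraMap A (FractionRing A) x * (algebraMap A (FractionRing A) u ^ t)⁻¹ :=
  rfl

lemma divPow_mul (u : A) (s t : ℕ) (x x' : A) :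
    divPow (k := k) u s x * divPow (k := k) u t x' = divPow (k := k) u (s + t) (x * x') := by
  rw [divPow_apply, divPow_apply, divPow_apply, map_mul, pow_add, mul_inv]
  ring

lemma divPow_injective {u : A} (hu : u ≠ 0) (t : ℕ) :
    Function.Injective (divPow (k := k) u t) := by
  rw [injective_iff_map_eq_zero]
  intro x hx
  rw [divPow_apply] at hx
  have hu' : algebraMap A (FractionRing A) u ≠ 0 := by
    rwa [Ne, map_eq_zero_iff _ (IsFractionRing.injective A (FractionRing A))]
  rcases mul_eq_zero.1 hx with h | h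
  · rwa [map_eq_zero_iff _ (IsFractionRing.injective A (FractionRing A))] at h
  · exact absurd h (inv_ne_zero (pow_ne_zero _ hu'))

lemma divPow_self {u : A} (hu : u ≠ 0) : divPow (k := k) u 1 u = 1 := by
  rw [divPow_apply, pow_one]
  refine mul_inv_cancel₀ ?_
  rwa [Ne, map_eq_zero_iff _ (IsFractionRing.injective A (FractionRing A))]

/-- **Rank growth of a Veronese.** -/
theorem veronese_growth [Infinite k] (V : ℕ → Submodule k A)
    (hmul : ∀ s t, V s * V t ≤ V (s + t)) (hfg : ∀ t, (V t).FG) {p : ℕ} (hp0 : V p ≠ ⊥)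
    (hp : ∃ c, ∀ t ≥ c, V (p * (t + 1)) ≤ V p * V (p * t)) :
    ∃ d D b c : ℕ, 1 ≤ D ∧ ∀ t, D * (t + d).choose d ≤ Module.finrank k (V (p * (c + t))) ∧
      Module.finrank k (V (p * (c + t))) ≤ D * (t + b + d).choose d := by
  classical
  obtain ⟨u, huV, hu⟩ := Submodule.exists_mem_ne_zero_of_ne_bot hp0
  obtain ⟨c, hc⟩ := hp
  let F := FractionRing A
  set G : ℕ → Submodule k F := fun t => (V (p * t)).map (divPow u t) with hG
  have hGmul : ∀ s t, G s * G t ≤ G (s + t) := by
    intro s t
    rw [Submodule.mul_le]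
    rintro _ ⟨x, hx, rfl⟩ _ ⟨x', hx', rfl⟩
    rw [divPow_mul]
    refine ⟨x * x', ?_, rfl⟩
    rw [mul_add]
    exact hmul _ _ (Submodule.mul_mem_mul hx hx')
  set E : Submodule k F := G 1 with hE
  have hEfg : E.FG := (hfg _).map _
  have h1E : (1 : F) ∈ E := by
    refine ⟨u, ?_, divPow_self hu⟩
    rw [mul_one]
    exact huV
  have hstep : ∀ t ≥ c, G (t + 1) ≤ E * G t := by
    intro t ht
    rintro _ ⟨x, hx, rfl⟩
    have hx' := hc t ht hx
    clear hx
    induction hx' using Submodule.mul_induction_on' with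
    | mem_mul_mem m hm n hn =>
      rw [add_comm t 1, ← divPow_mul]
      exact Submodule.mul_mem_mul ⟨m, by rwa [mul_one], rfl⟩ ⟨n, hn, rfl⟩
    | add x _ x' _ hx hx' =>
      rw [map_add]
      exact Submodule.add_mem _ hx hx'
  have hGc : ∀ t, G (c + t) = E ^ t * G c := by
    intro t
    induction t with
    | zero => simp
    | succ t ih =>
      apply le_antisymm
      · rw [← add_assoc, pow_succ', mul_assoc, ← ih]
        exact hstep _ (by omega)
      · rw [pow_succ', mul_assoc, ← ih]
        have := hGmul 1 (c + t)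
        rwa [show 1 + (c + t) = c + (t + 1) by omega] at this
  have hpow : ∀ c, u ^ (c + 1) ∈ V (p * (c + 1)) := by
    intro c
    induction c with
    | zero => simpa using huV
    | succ c ih =>
      rw [pow_succ, mul_add p (c + 1) 1, mul_one]
      exact hmul _ _ (Submodule.mul_mem_mul ih huV)
  have hGc0 : G (c + 1) ≠ ⊥ := by
    intro h
    have h1 : divPow (k := k) u (c + 1) (u ^ (c + 1)) ∈ G (c + 1) := ⟨_, hpow c, rfl⟩
    rw [h, Submodule.mem_bot] at h1
    exact pow_ne_zero _ hu (divPow_injective hu _ (by rw [h1, map_zero]))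
  obtain ⟨d, y, c0, hy, hyE, hred⟩ := exists_reduction' (k := k) hEfg h1E
  set Y : Submodule k F := affSpan y with hY
  have hEY : ∀ t, E ^ (c0 + t) = Y ^ t * E ^ c0 := by
    intro t
    apply le_antisymm (red_pow hred t)
    rw [add_comm, pow_add]
    exact mul_le_mulR _ (pow_le_powL hyE t)
  set W : Submodule k F := E ^ c0 * G (c + 1) with hW
  have hfin : ∀ t, G (c + 1 + c0 + t) = Y ^ t * W := by
    intro t
    have h1 : c + 1 + c0 + t = c + (1 + (c0 + t)) := by omega
    rw [h1, hGc, pow_add, hEY, hW, hGc 1]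
    ring
  have hEpow : ∀ n, (E ^ n).FG := by
    intro n
    exact hEfg.pow n
  have hWfg : W.FG := (hEpow c0).mul ((hfg _).map _)
  have hW0 : W ≠ ⊥ := by
    intro h
    apply hGc0
    rw [eq_bot_iff, ← h, hW]
    intro x hx
    have h2 : (1 : F) ∈ E ^ c0 := by
      have := Submodule.pow_mem_pow E h1E c0
      rwa [one_pow] at this
    have := Submodule.mul_mem_mul h2 hx
    rwa [one_mul] at this
  obtain ⟨D, b, hD, hb⟩ := rank_growth hy hWfg hW0
  refine ⟨d, D, b, c + 1 + c0, hD, fun t => ?_⟩
  have h3 : Module.finrank k (V (p * (c + 1 + c0 + t)))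
      = Module.finrank k (G (c + 1 + c0 + t)) :=
    (Submodule.equivMapOfInjective _ (divPow_injective hu _) _).finrank_eq
  rw [h3, hfin]
  exact (hb t).2

end Vale.Agent.P271.Hilb
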