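import Vale.Agent.P271.Hilb.UPoly

/-!
# Linear Noether normalisation of a standard graded algebra over an infinite field

`exists_noether`: let `R` be a graded algebra over an infinite field `k`, generated over `k` by
the finite dimensional space `R_1`.  Then there are algebraically independent elements
`y_1, …, y_n ∈ R_1` such that `R` is integral over `k[y_1, …, y_n]`.
-/

namespace Vale.Agent.P271.Hilb

open MvPolynomial

section Poly

variable {B : Type*} [CommRing B]

lemma coeff_prod_le {ι : Type*} (s : Finset ι) (f : ι → Polynomial B) (n : ι → ℕ)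
    (h : ∀ j ∈ s, (f j).natDegree ≤ n j) :
    (∏ j ∈ s, f j).natDegree ≤ ∑ j ∈ s, n j ∧
      (∏ j ∈ s, f j).coeff (∑ j ∈ s, n j) = ∏ j ∈ s, (f j).coeff (n j) := by
  classical
  induction s using Finset.induction_on with
  | empty => simp
  | insert a s ha ih =>
    obtain ⟨h1, h2⟩ := ih (fun j hj => h j (Finset.mem_insert_of_mem hj))
    have h3 := h a (Finset.mem_insert_self a s)
    rw [Finset.prod_insert ha, Finset.sum_insert ha, Finset.prod_insert ha]
    constructor
    · exact (Polynomial.natDegree_mul_le).trans (add_le_add h3 h1)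
    · rw [Polynomial.coeff_mul_add_eq_of_natDegree_le h3 h1, h2]

/-- the polynomial `a + b T` -/
noncomputable def lin (a b : B) : Polynomial B := Polynomial.C a + Polynomial.C b * Polynomial.X

lemma linear_pow (a b : B) (m : ℕ) :
    ((lin a b) ^ m).natDegree ≤ m ∧ ((lin a b) ^ m).coeff m = b ^ m := by
  have h1 : (lin a b).natDegree ≤ 1 := by
    rw [lin, add_comm]
    exact Polynomial.natDegree_linear_le
  constructor
  · calc ((lin a b) ^ m).natDegree ≤ m * (lin a b).natDegree := Polynomial.natDegree_pow_le
      _ ≤ m * 1 := Nat.mul_le_mul_left _ h1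
      _ = m := mul_one m
  · have h2 := Polynomial.coeff_pow_of_natDegree_le (m := m) h1
    rw [mul_one] at h2
    rw [h2]
    simp [lin]

variable {k : Type*} [Field k] [Algebra k B]

/-- Substituting `a_j + c_j T` into a form of degree `e` gives a polynomial of degree `≤ e` whose
coefficient at `T ^ e` is the value of the form at `c`. -/
lemma subst_coeff {n : ℕ} {Q : MvPolynomial (Fin n) k} {e : ℕ} (hQ : Q.IsHomogeneous e)
    (a : Fin n → B) (c : Fin n → k) :
    (aeval (fun j => lin (a j) (algebraMap k B (c j))) Q).natDegree ≤ e ∧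
      (aeval (fun j => lin (a j) (algebraMap k B (c j))) Q).coeff e
        = algebraMap k B (eval c Q) := by
  have key : ∀ m ∈ Q.support,
      (aeval (fun j => lin (a j) (algebraMap k B (c j)))
        (monomial m (Q.coeff m))).natDegree ≤ e ∧
      (aeval (fun j => lin (a j) (algebraMap k B (c j)))
        (monomial m (Q.coeff m))).coeff e
        = algebraMap k B (Q.coeff m * ∏ j, c j ^ m j) := by
    intro m hm
    have he : ∑ j, m j = e := by
      have h1 := hQ (MvPolynomial.mem_support_iff.1 hm)
      rw [← h1]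
      simp [Finsupp.weight_apply, Finsupp.sum_fintype]
    rw [MvPolynomial.aeval_monomial, Finsupp.prod_fintype _ _ (fun i => pow_zero _)]
    obtain ⟨h1, h2⟩ := coeff_prod_le (B := B) Finset.univ
      (fun j => (lin (a j) (algebraMap k B (c j))) ^ m j) (fun j => m j)
      (fun j _ => (linear_pow (a j) (algebraMap k B (c j)) (m j)).1)
    rw [he] at h1 h2
    have h3 : (algebraMap k (Polynomial B)) (Q.coeff m)
        = Polynomial.C (algebraMap k B (Q.coeff m)) := rfl
    rw [h3]
    constructor
    · exact (Polynomial.natDegree_C_mul_le _ _).trans h1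
    · rw [Polynomial.coeff_C_mul, h2, map_mul, map_prod]
      congr 1
      refine Finset.prod_congr rfl (fun j _ => ?_)
      rw [(linear_pow (a j) (algebraMap k B (c j)) (m j)).2, map_pow]
  have hsum : aeval (fun j => lin (a j) (algebraMap k B (c j))) Q
      = ∑ m ∈ Q.support, aeval (fun j => lin (a j) (algebraMap k B (c j)))
        (monomial m (Q.coeff m)) := by
    conv_lhs => rw [Q.as_sum]
    rw [map_sum]
  rw [hsum]
  constructor
  · exact Polynomial.natDegree_sum_le_of_forall_le _ _ (fun m hm => (key m hm).1)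
  · rw [Polynomial.finsetSum_coeff, Finset.sum_congr rfl (fun m hm => (key m hm).2), ← map_sum,
      eval_eq']

/-- A form `Q` with `Q(c) ≠ 0` and `Q(a + c z) = 0` shows that `z` is integral. -/
lemma integral_of_subst {R : Type*} [CommRing R] [Algebra k R] [Algebra B R]
    [IsScalarTower k B R] {n : ℕ} {Q : MvPolynomial (Fin n) k} {e : ℕ}
    (hQ : Q.IsHomogeneous e) (a : Fin n → B) (c : Fin n → k) (hc : eval c Q ≠ 0) (z : R)
    (hz : aeval (fun j => algebraMap B R (a j) + c j • z) Q = 0) : IsIntegral B z := by
  obtain ⟨h1, h2⟩ := subst_coeff (B := B) hQ a c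
  have hroot : Polynomial.aeval z (aeval (fun j => lin (a j) (algebraMap k B (c j))) Q) = 0 := by
    rw [← hz]
    have h4 : ((Polynomial.aeval z : Polynomial B →ₐ[B] R).restrictScalars k).comp
        (aeval (fun j => lin (a j) (algebraMap k B (c j))))
        = aeval (fun j => algebraMap B R (a j) + c j • z) := by
      apply MvPolynomial.algHom_ext
      intro j
      simp only [AlgHom.coe_comp, Function.comp_apply, aeval_X, lin,
        AlgHom.restrictScalars_apply, map_add, map_mul, Polynomial.aeval_C,
        Polynomial.aeval_X, ← IsScalarTower.algebraMap_apply, Algebra.smul_def]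
    exact DFunLike.congr_fun h4 Q
  refine ⟨Polynomial.C (algebraMap k B (eval c Q)⁻¹) *
    aeval (fun j => lin (a j) (algebraMap k B (c j))) Q, ?_, ?_⟩
  · apply Polynomial.monic_of_natDegree_le_of_coeff_eq_one e
    · exact (Polynomial.natDegree_C_mul_le _ _).trans h1
    · rw [Polynomial.coeff_C_mul, h2, ← map_mul, inv_mul_cancel₀ hc, map_one]
  · rw [← Polynomial.aeval_def, map_mul, hroot, mul_zero]

end Poly

section Noether

variable {k : Type*} [Field k] {R : Type*} [CommRing R] [Algebra k R]
variable (𝒜 : ℕ → Submodule k R) [GradedAlgebra 𝒜]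

/-- the value of a form of degree `e` at elements of degree one has degree `e` -/
lemma aeval_mem {n : ℕ} {y : Fin n → R} (hy : ∀ i, y i ∈ 𝒜 1) {Q : MvPolynomial (Fin n) k}
    {e : ℕ} (hQ : Q.IsHomogeneous e) : aeval y Q ∈ 𝒜 e := by
  rw [Q.as_sum, map_sum]
  refine Submodule.sum_mem _ (fun m hm => ?_)
  have he : ∑ j, m j = e := by
    have h1 := hQ (MvPolynomial.mem_support_iff.1 hm)
    rw [← h1]
    simp [Finsupp.weight_apply, Finsupp.sum_fintype]
  rw [aeval_monomial, ← Algebra.smul_def, Finsupp.prod_fintype _ _ (fun i => pow_zero _)]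
  refine Submodule.smul_mem _ _ ?_
  have h2 : ∏ j, y j ^ m j ∈ 𝒜 (∑ j, m j • 1) := by
    refine SetLike.prod_mem_graded _ _ _ (fun j _ => ?_)
    exact SetLike.pow_mem_graded _ (hy j)
  simpa [he] using h2

/-- the homogeneous components of the value of a polynomial at elements of degree one -/
lemma proj_aeval {n : ℕ} {y : Fin n → R} (hy : ∀ i, y i ∈ 𝒜 1) (P : MvPolynomial (Fin n) k)
    (e : ℕ) : (DirectSum.decompose 𝒜 (aeval y P) e : R) = aeval y (homogeneousComponent e P) := by
  classical
  conv_lhs => rw [← sum_homogeneousComponent P, map_sum, DirectSum.decompose_sum]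
  rw [DirectSum.sum_apply, AddSubmonoidClass.coe_finsetSum]
  by_cases he : e ∈ Finset.range (P.totalDegree + 1)
  · rw [Finset.sum_eq_single_of_mem e he]
    · exact DirectSum.decompose_of_mem_same _
        (aeval_mem 𝒜 hy (homogeneousComponent_isHomogeneous e P))
    · intro i _ hi
      exact DirectSum.decompose_of_mem_ne _
        (aeval_mem 𝒜 hy (homogeneousComponent_isHomogeneous i P)) hi
  · have h1 : homogeneousComponent e P = 0 := by
      apply homogeneousComponent_eq_zero
      simpa [Nat.lt_succ_iff] using he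
    rw [h1, map_zero]
    refine Finset.sum_eq_zero (fun i hi => ?_)
    refine DirectSum.decompose_of_mem_ne _
        (aeval_mem 𝒜 hy (homogeneousComponent_isHomogeneous i P)) ?_
    rintro rfl
    exact he hi

lemma isIntegral_mono {B S : Subalgebra k R} (hS : ∀ x ∈ S, IsIntegral B x) {x : R}
    (hx : IsIntegral S x) : IsIntegral B x := by
  have hx' : IsIntegral (integralClosure B R) x := by
    let φ : S →+* integralClosure B R :=
      { toFun := fun s => ⟨s.1, hS s.1 s.2⟩
        map_one' := rfl
        map_mul' := fun _ _ => rfl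
        map_zero' := rfl
        map_add' := fun _ _ => rfl }
    exact hx.map_of_comp_eq φ (RingHom.id R) rfl
  exact isIntegral_trans x hx'

variable [Infinite k] [Nontrivial R]

/-- If `R` is integral over `k[y_0, …, y_n]` with algebraically dependent linear forms `y_i`,
then it is integral over `k[y'_1, …, y'_n]` for some linear forms `y'_i`. -/
lemma reduce_step {n : ℕ} {y : Fin (n + 1) → R} (hy : ∀ i, y i ∈ 𝒜 1)
    (hint : ∀ x : R, IsIntegral (Algebra.adjoin k (Set.range y)) x)
    (hdep : ¬ AlgebraicIndependent k y) :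
    ∃ y' : Fin n → R, (∀ i, y' i ∈ 𝒜 1) ∧
      ∀ x : R, IsIntegral (Algebra.adjoin k (Set.range y')) x := by
  classical
  -- a homogeneous relation
  obtain ⟨e, Q, hQe, hQ0, hQy⟩ : ∃ (e : ℕ) (Q : MvPolynomial (Fin (n + 1)) k),
      Q.IsHomogeneous e ∧ Q ≠ 0 ∧ MvPolynomial.aeval y Q = 0 := by
    rw [AlgebraicIndependent, injective_iff_map_eq_zero] at hdep
    push Not at hdep
    obtain ⟨P, hP, hP0⟩ := hdep
    obtain ⟨e, he⟩ : ∃ e, homogeneousComponent e P ≠ 0 := by
      by_contra hcon
      push Not at hcon
      apply hP0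
      rw [← sum_homogeneousComponent P]
      exact Finset.sum_eq_zero (fun i _ => hcon i)
    refine ⟨e, homogeneousComponent e P, homogeneousComponent_isHomogeneous e P, he, ?_⟩
    rw [← proj_aeval 𝒜 hy P e, hP]
    simp
  -- a point where `Q` does not vanish
  obtain ⟨c, hc⟩ : ∃ c : Fin (n + 1) → k, MvPolynomial.eval c Q ≠ 0 := by
    by_contra hcon
    push Not at hcon
    apply hQ0
    exact MvPolynomial.funext (fun c => by rw [hcon c, map_zero])
  obtain ⟨i, hi⟩ : ∃ i, c i ≠ 0 := by
    by_contra hcon
    push Not at hcon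
    have hc0 : c = 0 := funext hcon
    rcases Nat.eq_zero_or_pos e with he | he
    · subst he
      rw [← MvPolynomial.mem_homogeneousSubmodule] at hQe
      have h1 : Q = MvPolynomial.C (MvPolynomial.coeff 0 Q) := by
        rw [← homogeneousComponent_zero, homogeneousComponent_of_mem hQe, if_pos rfl]
      rw [h1, MvPolynomial.algHom_C, map_eq_zero] at hQy
      rw [hQy, map_zero] at h1
      exact hQ0 h1
    · apply hc
      rw [hc0, MvPolynomial.eval_zero]
      exact hQe.coeff_eq_zero (by simpa using he.ne)
  set z : R := (c i)⁻¹ • y i with hz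
  have hz1 : z ∈ 𝒜 1 := Submodule.smul_mem _ _ (hy i)
  set a : Fin (n + 1) → R := fun j => y j - c j • z with ha
  have ha1 : ∀ j, a j ∈ 𝒜 1 := fun j =>
    Submodule.sub_mem _ (hy j) (Submodule.smul_mem _ _ hz1)
  have hai : a i = 0 := by
    simp only [ha, hz]
    rw [smul_smul, mul_inv_cancel₀ hi, one_smul, sub_self]
  set y' : Fin n → R := fun j => a (i.succAbove j) with hy'
  refine ⟨y', fun j => ha1 _, ?_⟩
  set B := Algebra.adjoin k (Set.range y') with hB
  have haB : ∀ j, a j ∈ B := by
    intro j
    by_cases hj : j = i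
    · rw [hj, hai]; exact zero_mem _
    · obtain ⟨l, hl⟩ := Fin.exists_succAbove_eq hj
      rw [← hl]
      exact Algebra.subset_adjoin ⟨l, rfl⟩
  -- `z` is integral over `B`
  have hzB : IsIntegral B z := by
    refine integral_of_subst hQe (fun j => (⟨a j, haB j⟩ : B)) c hc z ?_
    rw [← hQy]
    congr 2
    funext j
    have h5 : (algebraMap B R) ⟨a j, haB j⟩ = a j := rfl
    rw [h5]
    simp [ha]
  have hyB : ∀ j, IsIntegral B (y j) := by
    intro j
    have h1 : y j = a j + c j • z := by simp [ha]
    rw [h1]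
    refine IsIntegral.add ?_ ?_
    · exact isIntegral_algebraMap (R := B) (A := R) (x := ⟨a j, haB j⟩)
    · rw [Algebra.smul_def]
      exact (isIntegral_algebraMap (R := B) (A := R) (x := algebraMap k B (c j))).mul hzB
  intro x
  refine isIntegral_mono (S := Algebra.adjoin k (Set.range y)) ?_ (hint x)
  intro s hs
  induction hs using Algebra.adjoin_induction with
  | mem s hs =>
    obtain ⟨j, rfl⟩ := hs
    exact hyB j
  | algebraMap r => exact isIntegral_algebraMap (R := B) (A := R) (x := algebraMap k B r)
  | add _ _ _ _ h1 h2 => exact h1.add h2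
  | mul _ _ _ _ h1 h2 => exact h1.mul h2

/-- **Linear Noether normalisation.** -/
theorem exists_noether (hfin : (𝒜 1).FG) (hgen : Algebra.adjoin k (𝒜 1 : Set R) = ⊤) :
    ∃ (n : ℕ) (y : Fin n → R), (∀ i, y i ∈ 𝒜 1) ∧ AlgebraicIndependent k y ∧
      ∀ x : R, IsIntegral (Algebra.adjoin k (Set.range y)) x := by
  classical
  have hex : ∃ (n : ℕ) (y : Fin n → R), (∀ i, y i ∈ 𝒜 1) ∧
      ∀ x : R, IsIntegral (Algebra.adjoin k (Set.range y)) x := by
    obtain ⟨n, y, hy⟩ := Submodule.fg_iff_exists_fin_generating_family.1 hfin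
    refine ⟨n, y, fun i => ?_, fun x => ?_⟩
    · rw [← hy]; exact Submodule.subset_span ⟨i, rfl⟩
    · have hx : x ∈ Algebra.adjoin k (Set.range y) := by
        have h1 : (𝒜 1 : Set R) ⊆ Algebra.adjoin k (Set.range y) := by
          intro w hw
          rw [SetLike.mem_coe, ← hy] at hw
          exact Algebra.span_le_adjoin k _ hw
        have h2 : Algebra.adjoin k (𝒜 1 : Set R) ≤ Algebra.adjoin k (Set.range y) :=
          Algebra.adjoin_le h1
        exact h2 (hgen ▸ Algebra.mem_top)
      exact isIntegral_algebraMap (R := Algebra.adjoin k (Set.range y)) (A := R) (x := ⟨x, hx⟩)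
  obtain ⟨y, hy, hint⟩ := Nat.find_spec hex
  refine ⟨Nat.find hex, y, hy, ?_, hint⟩
  by_contra hdep
  rcases hn : Nat.find hex with _ | n
  · apply hdep
    have : IsEmpty (Fin (Nat.find hex)) := by rw [hn]; infer_instance
    rw [algebraicIndependent_empty_type_iff]
    exact (algebraMap k R).injective
  · revert y
    rw [hn]
    intro y hy hint hdep
    obtain ⟨y', h1, h2⟩ := reduce_step 𝒜 hy hint hdep
    exact Nat.find_min hex (m := n) (by omega) ⟨y', h1, h2⟩

end Noether

end Vale.Agent.P271.Hilb
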