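import Vale.Agent.P271.Hilb.UNoether

/-!
# Traces of homogeneous integral elements are homogeneous

`A = k[X_0, …, X_{n-1}]`, `R` a graded domain over `k` which is an `A`-algebra such that the
images of the variables have degree one, `x ∈ R_t` integral over `A`.  Then the coefficients of
the minimal polynomial of `x` are forms, and so is the trace of `x`.
-/

set_option linter.unusedSectionVars false

namespace Vale.Agent.P271.Hilb

open MvPolynomial

variable {k : Type*} [Field k] {n : ℕ} {R : Type*} [CommRing R] [Algebra k R]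
  [Algebra (MvPolynomial (Fin n) k) R] [IsScalarTower k (MvPolynomial (Fin n) k) R]
variable (𝒜 : ℕ → Submodule k R) [GradedAlgebra 𝒜]

lemma algebraMap_eq_aeval (p : MvPolynomial (Fin n) k) :
    algebraMap (MvPolynomial (Fin n) k) R p
      = aeval (fun i => algebraMap (MvPolynomial (Fin n) k) R (X i)) p := by
  have h : (IsScalarTower.toAlgHom k (MvPolynomial (Fin n) k) R)
      = aeval (fun i => algebraMap (MvPolynomial (Fin n) k) R (X i)) := by
    apply MvPolynomial.algHom_ext
    intro i
    simp
  exact DFunLike.congr_fun h p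

variable (hy : ∀ i, algebraMap (MvPolynomial (Fin n) k) R (X i) ∈ 𝒜 1)

include hy

lemma algebraMap_mem {p : MvPolynomial (Fin n) k} {e : ℕ} (hp : p.IsHomogeneous e) :
    algebraMap (MvPolynomial (Fin n) k) R p ∈ 𝒜 e := by
  rw [algebraMap_eq_aeval]
  exact aeval_mem 𝒜 hy hp

lemma proj_algebraMap (p : MvPolynomial (Fin n) k) (e : ℕ) :
    (DirectSum.decompose 𝒜 (algebraMap (MvPolynomial (Fin n) k) R p) e : R)
      = algebraMap (MvPolynomial (Fin n) k) R (homogeneousComponent e p) := by
  rw [algebraMap_eq_aeval, algebraMap_eq_aeval (homogeneousComponent e p)]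
  exact proj_aeval 𝒜 hy p e

/-- the homogeneous version of a monic relation -/
lemma exists_homogeneous_relation {t : ℕ} {x : R} (hx : x ∈ 𝒜 t)
    {p : Polynomial (MvPolynomial (Fin n) k)} (hp : p.Monic) (hpx : Polynomial.aeval x p = 0) :
    ∃ q : Polynomial (MvPolynomial (Fin n) k), q.Monic ∧ Polynomial.aeval x q = 0 ∧
      q.natDegree ≤ p.natDegree ∧
      ∀ j ≤ p.natDegree, (q.coeff j).IsHomogeneous (t * (p.natDegree - j)) := by
  classical
  set m := p.natDegree with hm
  set c : ℕ → MvPolynomial (Fin n) k :=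
    fun j => homogeneousComponent (t * (m - j)) (p.coeff j) with hc
  set q : Polynomial (MvPolynomial (Fin n) k) :=
    ∑ j ∈ Finset.range (m + 1), Polynomial.C (c j) * Polynomial.X ^ j with hq
  have hcoeff : ∀ j, q.coeff j = if j ∈ Finset.range (m + 1) then c j else 0 := by
    intro j
    rw [hq, Polynomial.finsetSum_coeff]
    simp only [Polynomial.coeff_C_mul_X_pow]
    rw [Finset.sum_ite_eq]
  have hdeg : q.natDegree ≤ m := by
    rw [Polynomial.natDegree_le_iff_coeff_eq_zero]
    intro j hj
    rw [hcoeff, if_neg]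
    simpa using hj
  have hlead : q.coeff m = 1 := by
    rw [hcoeff, if_pos (by simp)]
    simp only [hc, Nat.sub_self, Nat.mul_zero]
    have h1 : p.coeff m = 1 := hp
    rw [h1, homogeneousComponent_zero]
    simp
  refine ⟨q, Polynomial.monic_of_natDegree_le_of_coeff_eq_one m hdeg hlead, ?_, hdeg, ?_⟩
  · have h1 : Polynomial.aeval x q = (DirectSum.decompose 𝒜 (Polynomial.aeval x p) (t * m) : R) := by
      rw [Polynomial.aeval_eq_sum_range (p := p), DirectSum.decompose_sum, DirectSum.sum_apply,
        AddSubmonoidClass.coe_finsetSum, hq, map_sum]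
      refine Finset.sum_congr rfl (fun j hj => ?_)
      have hjm : j ≤ m := by simpa [Nat.lt_succ_iff] using hj
      have hxj : x ^ j ∈ 𝒜 (t * j) := by
        have := SetLike.pow_mem_graded j hx
        rwa [smul_eq_mul, mul_comm] at this
      have h2 : t * m = t * (m - j) + t * j := by
        rw [← Nat.mul_add]; congr 1; omega
      rw [Algebra.smul_def, h2, DirectSum.coe_decompose_mul_add_of_right_mem 𝒜 hxj,
        proj_algebraMap 𝒜 hy]
      simp [hc]
    rw [h1, hpx]
    simp
  · intro j hj
    rw [hcoeff, if_pos (by simpa [Nat.lt_succ_iff] using hj)]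
    exact homogeneousComponent_isHomogeneous _ _

variable [IsDomain R] [Module.IsTorsionFree (MvPolynomial (Fin n) k) R]

lemma minpoly_coeff_homogeneous {t : ℕ} {x : R} (hx : x ∈ 𝒜 t)
    (hint : IsIntegral (MvPolynomial (Fin n) k) x) {j : ℕ}
    (hj : j ≤ (minpoly (MvPolynomial (Fin n) k) x).natDegree) :
    ((minpoly (MvPolynomial (Fin n) k) x).coeff j).IsHomogeneous
      (t * ((minpoly (MvPolynomial (Fin n) k) x).natDegree - j)) := by
  obtain ⟨q, hq1, hq2, hq3, hq4⟩ := exists_homogeneous_relation 𝒜 hy hx (minpoly.monic hint)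
    (minpoly.aeval _ _)
  have h1 : q = minpoly (MvPolynomial (Fin n) k) x := by
    apply minpoly.IsIntegrallyClosed.unique_of_degree_le_degree_minpoly hq1 hq2
    rw [Polynomial.degree_eq_natDegree hq1.ne_zero,
      Polynomial.degree_eq_natDegree (minpoly.ne_zero hint)]
    exact_mod_cast hq3
  have h2 := hq4 j hj
  rwa [h1] at h2

variable {K L : Type*} [Field K] [Field L] [Algebra (MvPolynomial (Fin n) k) K]
  [IsFractionRing (MvPolynomial (Fin n) k) K] [Algebra R L] [IsFractionRing R L] [Algebra K L]
  [Algebra (MvPolynomial (Fin n) k) L] [IsScalarTower (MvPolynomial (Fin n) k) K L]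
  [IsScalarTower (MvPolynomial (Fin n) k) R L] [FiniteDimensional K L]

/-- the trace of a homogeneous integral element of degree `t` is a form of degree `t` -/
theorem trace_homogeneous {t : ℕ} {x : R} (hx : x ∈ 𝒜 t)
    (hint : IsIntegral (MvPolynomial (Fin n) k) x) :
    ∃ p : MvPolynomial (Fin n) k, p.IsHomogeneous t ∧
      algebraMap (MvPolynomial (Fin n) k) K p = Algebra.trace K L (algebraMap R L x) := by
  have h1 := trace_eq_finrank_mul_minpoly_nextCoeff K (algebraMap R L x)
  rw [minpoly.isIntegrallyClosed_eq_field_fractions K L hint] at h1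
  have hmon := minpoly.monic hint
  have h2 : ((minpoly (MvPolynomial (Fin n) k) x).map
      (algebraMap (MvPolynomial (Fin n) k) K)).nextCoeff
      = algebraMap (MvPolynomial (Fin n) k) K (minpoly (MvPolynomial (Fin n) k) x).nextCoeff := by
    apply Polynomial.nextCoeff_map_of_leadingCoeff_ne_zero
    rw [hmon.leadingCoeff, map_one]
    exact one_ne_zero
  rw [h2] at h1
  have hpos : 0 < (minpoly (MvPolynomial (Fin n) k) x).natDegree := minpoly.natDegree_pos hint
  refine ⟨(Module.finrank (IntermediateField.adjoin K {algebraMap R L x}) L : ℕ) •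
    -(minpoly (MvPolynomial (Fin n) k) x).nextCoeff, ?_, ?_⟩
  · rw [← mem_homogeneousSubmodule]
    apply Submodule.smul_of_tower_mem
    apply Submodule.neg_mem
    rw [mem_homogeneousSubmodule, Polynomial.nextCoeff_of_natDegree_pos hpos]
    have h3 := minpoly_coeff_homogeneous 𝒜 hy hx hint
      (j := (minpoly (MvPolynomial (Fin n) k) x).natDegree - 1) (by omega)
    have h4 : t * ((minpoly (MvPolynomial (Fin n) k) x).natDegree -
        ((minpoly (MvPolynomial (Fin n) k) x).natDegree - 1)) = t := by
      have : (minpoly (MvPolynomial (Fin n) k) x).natDegree -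
        ((minpoly (MvPolynomial (Fin n) k) x).natDegree - 1) = 1 := by omega
      rw [this, mul_one]
    rwa [h4] at h3
  · rw [h1, map_nsmul, map_neg, nsmul_eq_mul]

end Vale.Agent.P271.Hilb
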